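import Vale.Agent.P096.Linear
import Mathlib.Analysis.InnerProductSpace.Projection.Basic
import Mathlib.Analysis.InnerProductSpace.Spectrum
import Mathlib.Analysis.Normed.Group.Quotient
import Mathlib.Analysis.Normed.Module.HahnBanach
import Mathlib.GroupTheory.Perm.Basic
import Mathlib.Analysis.VonNeumannAlgebra.Basic

/-!
# The amplification `L(Γ) ⊗ B(ℓ²)` and the distance formula for its commutant
-/

noncomputable section

namespace Vale.Agent.P096

open scoped InnerProductSpace ComplexConjugate Topology ENNReal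
open Filter

/-- The Hilbert space `ℓ²(ℕ, ℓ²(Γ))`. -/
abbrev Hamp (Γ : Type*) := lp (fun _ : ℕ => Hl2 Γ) 2

variable {Γ : Type*}

/-- Coordinatewise action of an operator. -/
def amp (T : Hl2 Γ →L[ℂ] Hl2 Γ) : Hamp Γ →L[ℂ] Hamp Γ :=
  LinearMap.mkContinuous
    { toFun := fun f => ⟨fun i => T (f i), by
        have h := ((lp.memℓp f).summable (p := 2) (by norm_num)).mul_left
          (‖T‖ ^ (2 : ℝ≥0∞).toReal)
        refine memℓp_gen (Summable.of_nonneg_of_le (fun i => by positivity) (fun i => ?_) h)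
        rw [← Real.mul_rpow (norm_nonneg _) (norm_nonneg _)]
        exact Real.rpow_le_rpow (norm_nonneg _) (T.le_opNorm _) (by norm_num)⟩
      map_add' := fun f g => by
        refine lp.ext (funext fun i => ?_)
        exact map_add T (f i) (g i)
      map_smul' := fun c f => by
        refine lp.ext (funext fun i => ?_)
        exact map_smul T c (f i) }
    ‖T‖ fun f => by
      refine lp.norm_le_of_forall_sum_le (by norm_num) (by positivity) fun s => ?_
      rw [Real.mul_rpow (norm_nonneg _) (norm_nonneg _)]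
      refine le_trans (Finset.sum_le_sum
        (g := fun i => ‖T‖ ^ (2 : ℝ≥0∞).toReal * ‖f i‖ ^ (2 : ℝ≥0∞).toReal) fun i _ => ?_) ?_
      · rw [← Real.mul_rpow (norm_nonneg _) (norm_nonneg _)]
        exact Real.rpow_le_rpow (norm_nonneg _) (T.le_opNorm _) (by norm_num)
      · rw [← Finset.mul_sum]
        exact mul_le_mul_of_nonneg_left (lp.sum_rpow_le_norm_rpow (by norm_num) f s) (by positivity)

@[simp] lemma amp_apply (T : Hl2 Γ →L[ℂ] Hl2 Γ) (f : Hamp Γ) (i : ℕ) : amp T f i = T (f i) := rfl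

lemma norm_amp_le (T : Hl2 Γ →L[ℂ] Hl2 Γ) : ‖amp T‖ ≤ ‖T‖ :=
  LinearMap.mkContinuous_norm_le _ (norm_nonneg T) _

lemma amp_mul (S T : Hl2 Γ →L[ℂ] Hl2 Γ) : amp (S * T) = amp S * amp T := by
  refine ContinuousLinearMap.ext fun f => lp.ext (funext fun i => ?_); rfl

lemma amp_sub (S T : Hl2 Γ →L[ℂ] Hl2 Γ) : amp (S - T) = amp S - amp T := by
  refine ContinuousLinearMap.ext fun f => lp.ext (funext fun i => ?_); rfl

lemma amp_add (S T : Hl2 Γ →L[ℂ] Hl2 Γ) : amp (S + T) = amp S + amp T := by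
  refine ContinuousLinearMap.ext fun f => lp.ext (funext fun i => ?_); rfl

lemma star_amp (T : Hl2 Γ →L[ℂ] Hl2 Γ) : star (amp T) = amp (star T) := by
  rw [ContinuousLinearMap.star_eq_adjoint]
  refine ((ContinuousLinearMap.eq_adjoint_iff _ _).2 fun x y => ?_).symm
  rw [lp.inner_eq_tsum, lp.inner_eq_tsum]
  refine tsum_congr fun i => ?_
  simp [ContinuousLinearMap.star_eq_adjoint, ContinuousLinearMap.adjoint_inner_left]

/-- Inclusion of one coordinate. -/
def inc (i : ℕ) : Hl2 Γ →L[ℂ] Hamp Γ :=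
  lp.singleContinuousLinearMap ℂ (fun _ : ℕ => Hl2 Γ) 2 i

/-- One coordinate. -/
def crd (i : ℕ) : Hamp Γ →L[ℂ] Hl2 Γ := lp.evalCLM ℂ (fun _ : ℕ => Hl2 Γ) 2 i

@[simp] lemma crd_apply (i : ℕ) (f : Hamp Γ) : crd i f = f i := rfl

lemma inc_apply (i j : ℕ) (v : Hl2 Γ) : inc i v j = if j = i then v else 0 := by
  simp [inc, lp.single_apply, Pi.single_apply]

lemma norm_inc_apply (i : ℕ) (v : Hl2 Γ) : ‖inc i v‖ = ‖v‖ := by
  rw [inc, lp.singleContinuousLinearMap_apply, lp.norm_single (by norm_num)]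

lemma inner_inc (i : ℕ) (v : Hl2 Γ) (f : Hamp Γ) : ⟪inc i v, f⟫_ℂ = ⟪v, f i⟫_ℂ := by
  rw [inc, lp.singleContinuousLinearMap_apply, lp.inner_single_left]

lemma amp_inc (T : Hl2 Γ →L[ℂ] Hl2 Γ) (i : ℕ) (v : Hl2 Γ) : amp T (inc i v) = inc i (T v) := by
  refine lp.ext (funext fun j => ?_)
  simp only [amp_apply, inc_apply]
  split <;> simp

lemma amp_ext (S T : Hamp Γ →L[ℂ] Hamp Γ) (h : ∀ i j v, S (inc j v) i = T (inc j v) i) : S = T :=
  lp.ext_continuousLinearMap (by norm_num) fun j =>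
    ContinuousLinearMap.ext fun v => lp.ext (funext fun i => h i j v)

/-- The corner `(i, j)` of an operator. -/
def corner (i j : ℕ) (x : Hamp Γ →L[ℂ] Hamp Γ) : Hl2 Γ →L[ℂ] Hl2 Γ :=
  (crd i).comp (x.comp (inc j))

@[simp] lemma corner_apply (i j : ℕ) (x : Hamp Γ →L[ℂ] Hamp Γ) (v : Hl2 Γ) :
    corner i j x v = x (inc j v) i := rfl

lemma norm_corner_le (i j : ℕ) (x : Hamp Γ →L[ℂ] Hamp Γ) : ‖corner i j x‖ ≤ ‖x‖ := by
  refine ContinuousLinearMap.opNorm_le_bound _ (norm_nonneg x) fun v => ?_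
  rw [corner_apply]
  refine (lp.norm_apply_le_norm (by norm_num) _ i).trans ((x.le_opNorm _).trans ?_)
  rw [norm_inc_apply]

/-- Embedding as the `(0, 0)` corner. -/
def emb (x : Hl2 Γ →L[ℂ] Hl2 Γ) : Hamp Γ →L[ℂ] Hamp Γ := (inc 0).comp (x.comp (crd 0))

lemma norm_emb_le (x : Hl2 Γ →L[ℂ] Hl2 Γ) : ‖emb x‖ ≤ ‖x‖ := by
  refine ContinuousLinearMap.opNorm_le_bound _ (norm_nonneg x) fun f => ?_
  simp only [emb, ContinuousLinearMap.comp_apply, norm_inc_apply, crd_apply]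
  exact (x.le_opNorm _).trans
    (mul_le_mul_of_nonneg_left (lp.norm_apply_le_norm (by norm_num) f 0) (norm_nonneg x))

section group

variable [Group Γ]

/-- The amplified right translations. -/
def rightSet (Γ : Type*) [Group Γ] : Set (Hamp Γ →L[ℂ] Hamp Γ) :=
  Set.range fun g : Γ => amp (Rt g)

/-- `L(Γ) ⊗ B(ℓ²)`, as the commutant of the amplified right translations. -/
def Mamp (Γ : Type*) [Group Γ] : Set (Hamp Γ →L[ℂ] Hamp Γ) := Set.centralizer (rightSet Γ)

lemma mem_Mamp {x : Hamp Γ →L[ℂ] Hamp Γ} :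
    x ∈ Mamp Γ ↔ ∀ g, amp (Rt g) * x = x * amp (Rt g) := by
  simp [Mamp, rightSet, Set.mem_centralizer_iff]

lemma star_mem_Mamp {x : Hamp Γ →L[ℂ] Hamp Γ} (hx : x ∈ Mamp Γ) : star x ∈ Mamp Γ := by
  rw [mem_Mamp] at *
  intro g
  have h := congrArg star (hx g⁻¹)
  rw [star_mul, star_mul, star_amp, star_Rt, inv_inv] at h
  exact h.symm

lemma corner_mem {x : Hamp Γ →L[ℂ] Hamp Γ} (hx : x ∈ Mamp Γ) (i j : ℕ) :
    corner i j x ∈ M₀ Γ := by
  rw [mem_M₀]
  intro g
  refine ContinuousLinearMap.ext fun v => ?_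
  have h := congrArg (fun S : Hamp Γ →L[ℂ] Hamp Γ => S (inc j v) i) (mem_Mamp.1 hx g)
  simp only [ContinuousLinearMap.mul_apply, amp_apply, amp_inc] at h
  simpa [ContinuousLinearMap.mul_apply] using h

lemma emb_mem {x : Hl2 Γ →L[ℂ] Hl2 Γ} (hx : x ∈ M₀ Γ) : emb x ∈ Mamp Γ := by
  rw [mem_Mamp]
  intro g
  refine ContinuousLinearMap.ext fun f => ?_
  have h := congrArg (fun S : Hl2 Γ →L[ℂ] Hl2 Γ => S (f 0)) (mem_M₀.1 hx g)
  simp only [ContinuousLinearMap.mul_apply] at h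
  simp [emb, ContinuousLinearMap.mul_apply, amp_inc, h]

lemma amp_mem {x : Hl2 Γ →L[ℂ] Hl2 Γ} (hx : x ∈ M₀ Γ) : amp x ∈ Mamp Γ := by
  rw [mem_Mamp]
  intro g
  rw [← amp_mul, ← amp_mul, mem_M₀.1 hx g]

lemma inner_apply_col (x : Hamp Γ →L[ℂ] Hamp Γ) (f : Hamp Γ) (i : ℕ) :
    HasSum (fun j => corner i j x (f j)) (x f i) :=
  ((lp.hasSum_single (by norm_num) f).mapL ((crd i).comp x)).congr_fun fun j => rfl

/-- Amplified elements of the commutant commute with `Mamp`. -/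
lemma amp_commute {b : Hl2 Γ →L[ℂ] Hl2 Γ} (hb : b ∈ M₀' Γ) :
    amp b ∈ Set.centralizer (Mamp Γ) := by
  intro x hx
  refine amp_ext _ _ fun i j v => ?_
  simp only [ContinuousLinearMap.mul_apply, amp_inc, amp_apply]
  have h := congrArg (fun S : Hl2 Γ →L[ℂ] Hl2 Γ => S v) (hb _ (corner_mem hx i j))
  simpa [ContinuousLinearMap.mul_apply] using h

/-- `M₀'` as a submodule. -/
def M₀'sub (Γ : Type*) [Group Γ] : Submodule ℂ (Hl2 Γ →L[ℂ] Hl2 Γ) where
  carrier := M₀' Γ
  add_mem' := add_mem_M₀'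
  zero_mem' := Set.zero_mem_centralizer
  smul_mem' := fun c _ h => smul_mem_M₀' c h

omit [Group Γ] in
/-- A functional of norm at most one on operators of a finite-dimensional space is given by
vectors of total square norm at most one. -/
lemma functional_vectors {E : Type*} [NormedAddCommGroup E] [InnerProductSpace ℂ E]
    [FiniteDimensional ℂ E] (f : (E →L[ℂ] E) →L[ℂ] ℂ) (hf : ‖f‖ ≤ 1) :
    ∃ ξ η : Fin (Module.finrank ℂ E) → E,
      (∀ A, f A = ∑ i, ⟪η i, A (ξ i)⟫_ℂ) ∧ ∑ i, ‖ξ i‖ ^ 2 ≤ 1 ∧ ∑ i, ‖η i‖ ^ 2 ≤ 1 := by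
  haveI : CompleteSpace E := FiniteDimensional.complete ℂ E
  let B : E →ₗ⋆[ℂ] E →ₗ[ℂ] ℂ :=
    LinearMap.mk₂'ₛₗ (starRingEnd ℂ) (RingHom.id ℂ)
      (fun x y => f (InnerProductSpace.rankOne ℂ y x))
      (fun x x' y => by simp) (fun c x y => by simp) (fun x y y' => by simp)
      (fun c x y => by simp)
  let Bc : E →L⋆[ℂ] E →L[ℂ] ℂ := LinearMap.mkContinuous₂ B 1 fun x y => by
    refine (f.le_opNorm _).trans ?_
    rw [InnerProductSpace.norm_rankOne]
    nlinarith [norm_nonneg x, norm_nonneg y, mul_nonneg (norm_nonneg x) (norm_nonneg y)]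
  let G : E →L[ℂ] E := InnerProductSpace.continuousLinearMapOfBilin Bc
  have hG : ∀ x y, ⟪G x, y⟫_ℂ = f (InnerProductSpace.rankOne ℂ y x) := by
    intro x y
    simp only [G, InnerProductSpace.continuousLinearMapOfBilin_apply]
    rfl
  have hsym : LinearMap.IsSymmetric ((star G * G : E →L[ℂ] E) : E →ₗ[ℂ] E) :=
    ContinuousLinearMap.isSelfAdjoint_iff_isSymmetric.1 (IsSelfAdjoint.star_mul_self G)
  set v := hsym.eigenvectorBasis (rfl : Module.finrank ℂ E = Module.finrank ℂ E)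
  have horth : ∀ i j, i ≠ j → ⟪G (v i), G (v j)⟫_ℂ = 0 := by
    intro i j hij
    rw [← ContinuousLinearMap.adjoint_inner_right]
    have := hsym.apply_eigenvectorBasis rfl j
    simp only [ContinuousLinearMap.coe_coe, ContinuousLinearMap.mul_apply,
      ContinuousLinearMap.star_eq_adjoint] at this
    rw [this, inner_smul_right, v.inner_eq_zero hij, mul_zero]
  have hfA : ∀ A : E →L[ℂ] E, f A = ∑ i, ⟪G (v i), A (v i)⟫_ℂ := by
    intro A
    have e : A = ∑ i, InnerProductSpace.rankOne ℂ (A (v i)) (v i) := by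
      refine ContinuousLinearMap.ext fun x => ?_
      simp only [sum_apply, InnerProductSpace.rankOne_apply]
      conv_lhs => rw [← v.sum_repr' x, map_sum]
      simp
    conv_lhs => rw [e, map_sum]
    exact Finset.sum_congr rfl fun i _ => (hG _ _).symm
  let s := fun i => ‖G (v i)‖
  let A₀ : E →L[ℂ] E := ∑ i, InnerProductSpace.rankOne ℂ ((s i : ℂ)⁻¹ • G (v i)) (v i)
  have hA₀ : ‖A₀‖ ≤ 1 := by
    refine ContinuousLinearMap.opNorm_le_bound _ zero_le_one fun x => ?_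
    rw [one_mul]
    refine le_of_pow_le_pow_left₀ two_ne_zero (norm_nonneg _) ?_
    simp only [A₀, sum_apply, InnerProductSpace.rankOne_apply]
    rw [norm_sum_sq_of_orth, ← v.sum_sq_norm_inner_right x]
    · refine Finset.sum_le_sum fun i _ => pow_le_pow_left₀ (norm_nonneg _) ?_ 2
      rw [norm_smul, norm_smul, norm_inv, Complex.norm_real, norm_norm]
      refine mul_le_of_le_one_right (norm_nonneg _) ?_
      exact inv_mul_le_one
    · intro i _ j _ hij
      rw [inner_smul_left, inner_smul_right, inner_smul_left, inner_smul_right, horth i j hij]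
      simp
  have hs : ∑ i, s i ≤ 1 := by
    have h1 : f A₀ = ((∑ i, s i : ℝ) : ℂ) := by
      rw [hfA]
      push_cast
      refine Finset.sum_congr rfl fun i _ => ?_
      have : A₀ (v i) = (s i : ℂ)⁻¹ • G (v i) := by
        simp only [A₀, sum_apply, InnerProductSpace.rankOne_apply]
        rw [Finset.sum_eq_single i]
        · rw [v.inner_eq_one, one_smul]
        · intro j _ hj
          rw [v.inner_eq_zero hj, zero_smul]
        · exact fun h => absurd (Finset.mem_univ i) h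
      rw [this, inner_smul_right, inner_self_eq_norm_sq_to_K]
      show ((s i : ℝ) : ℂ)⁻¹ * ((s i : ℝ) : ℂ) ^ 2 = _
      rcases eq_or_ne (s i) 0 with h | h
      · simp [h]
      · have : ((s i : ℝ) : ℂ) ≠ 0 := by exact_mod_cast h
        field_simp
    have h2 := f.le_opNorm A₀
    rw [h1, Complex.norm_real, Real.norm_of_nonneg (Finset.sum_nonneg fun i _ => norm_nonneg _)]
      at h2
    exact h2.trans (mul_le_one₀ hf (norm_nonneg _) hA₀)
  refine ⟨fun i => ((√(s i) : ℝ) : ℂ) • v i, fun i => ((√(s i) : ℝ) : ℂ)⁻¹ • G (v i), ?_, ?_, ?_⟩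
  · intro A
    rw [hfA]
    refine Finset.sum_congr rfl fun i _ => ?_
    rw [map_smul, inner_smul_left, inner_smul_right, map_inv₀, Complex.conj_ofReal]
    rcases eq_or_ne (s i) 0 with h | h
    · have : G (v i) = 0 := norm_eq_zero.1 h
      simp [this]
    · have : ((√(s i) : ℝ) : ℂ) ≠ 0 := by
        exact_mod_cast (Real.sqrt_pos.2 (lt_of_le_of_ne (norm_nonneg _) (Ne.symm h))).ne'
      field_simp
  · refine le_trans (le_of_eq (Finset.sum_congr rfl fun i _ => ?_)) hs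
    rw [norm_smul, v.norm_eq_one, mul_one, Complex.norm_real, Real.norm_eq_abs, sq_abs,
      Real.sq_sqrt (norm_nonneg _)]
  · refine le_trans (le_of_eq (Finset.sum_congr rfl fun i _ => ?_)) hs
    rw [norm_smul, norm_inv, Complex.norm_real, Real.norm_of_nonneg (Real.sqrt_nonneg _)]
    show ((√(s i))⁻¹ * s i) ^ 2 = s i
    rcases eq_or_ne (s i) 0 with h | h
    · simp [h]
    · have hs0 : 0 ≤ s i := norm_nonneg _
      rw [mul_pow, inv_pow, Real.sq_sqrt hs0]
      field_simp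

omit [Group Γ] in
/-- Dual description of the distance to a finite-dimensional subspace. -/
lemma exists_near_of_dual {V : Type*} [NormedAddCommGroup V] [NormedSpace ℂ V]
    (W : Submodule ℂ V) [FiniteDimensional ℂ W] (v : V) (c δ : ℝ) (hc : 0 ≤ c) (hδ : 0 < δ)
    (h : ∀ f : V →L[ℂ] ℂ, ‖f‖ ≤ 1 → (∀ w ∈ W, f w = 0) → ‖f v‖ ≤ c) :
    ∃ w ∈ W, ‖v - w‖ ≤ c + δ := by
  haveI : IsClosed (W : Set V) := W.closed_of_finiteDimensional
  have hdist : ‖W.mkQ v‖ ≤ c := by
    obtain ⟨g, hg1, hg2⟩ := exists_dual_vector'' ℂ (W.mkQ v)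
    let f : V →L[ℂ] ℂ :=
      LinearMap.mkContinuous ((g : _ →ₗ[ℂ] ℂ).comp W.mkQ) 1 fun A => by
        refine (g.le_opNorm _).trans ?_
        exact mul_le_mul hg1 (Submodule.Quotient.norm_mk_le W A) (norm_nonneg _) zero_le_one
    have h1 := h f (LinearMap.mkContinuous_norm_le _ zero_le_one _) fun w hw => by
      show g (W.mkQ w) = 0
      rw [Submodule.mkQ_apply, (Submodule.Quotient.mk_eq_zero W).2 hw, map_zero]
    have h3 : f v = (‖W.mkQ v‖ : ℂ) := hg2
    rw [h3, Complex.norm_real, norm_norm] at h1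
    exact h1
  obtain ⟨A, hA, hAn⟩ := Submodule.Quotient.norm_mk_lt (W.mkQ v) hδ
  refine ⟨v - A, (Submodule.Quotient.eq W).1 hA.symm, ?_⟩
  rw [sub_sub_cancel]
  exact hAn.le.trans (add_le_add hdist le_rfl)

/-- A pairing that kills the amplified commutant sees little of `amp T`. -/
lemma pairing_le (T : Hl2 Γ →L[ℂ] Hl2 Γ) (c : ℝ) (hc : 0 ≤ c)
    (hT : ∀ x ∈ Mamp Γ, ‖amp T * x - x * amp T‖ ≤ c * ‖x‖) (ξv ηv : Hamp Γ)
    (h0 : ∀ b ∈ M₀' Γ, ⟪ηv, amp b ξv⟫_ℂ = 0) :
    ‖⟪ηv, amp T ξv⟫_ℂ‖ ≤ c * ‖ηv‖ * ‖ξv‖ := by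
  let V : Submodule ℂ (Hamp Γ) :=
    (Submodule.span ℂ {w | ∃ b ∈ M₀' Γ, w = amp b ξv}).topologicalClosure
  haveI : CompleteSpace V := (Submodule.isClosed_topologicalClosure _).completeSpace_coe
  have hinv : ∀ (g : Γ), ∀ w ∈ V, amp (Rt g) w ∈ V := by
    intro g
    have hle : Submodule.span ℂ {w | ∃ b ∈ M₀' Γ, w = amp b ξv} ≤
        V.comap (amp (Rt g) : Hamp Γ →ₗ[ℂ] Hamp Γ) := by
      rw [Submodule.span_le]
      rintro w ⟨b, hb, rfl⟩
      refine Submodule.le_topologicalClosure _ (Submodule.subset_span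
        ⟨Rt g * b, mul_mem_M₀' (Rt_mem g) hb, ?_⟩)
      rw [amp_mul]; rfl
    exact fun w hw => Submodule.topologicalClosure_minimal _ hle
      ((Submodule.isClosed_topologicalClosure _).preimage (amp (Rt g)).continuous) hw
  have hP : V.starProjection ∈ Mamp Γ := by
    rw [mem_Mamp]
    intro g
    refine ContinuousLinearMap.ext fun w => ?_
    simp only [ContinuousLinearMap.mul_apply]
    refine (Submodule.eq_starProjection_of_mem_of_inner_eq_zero
      (hinv g _ (V.starProjection_apply_mem w)) fun u hu => ?_).symm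
    rw [← map_sub, ← ContinuousLinearMap.adjoint_inner_right,
      ← ContinuousLinearMap.star_eq_adjoint, star_amp, star_Rt]
    exact Submodule.starProjection_inner_eq_zero w _ (hinv g⁻¹ u hu)
  have hξV : ξv ∈ V := Submodule.le_topologicalClosure _ (Submodule.subset_span
    ⟨1, Set.one_mem_centralizer, by
      refine lp.ext (funext fun i => ?_); rfl⟩)
  have hηV : V.starProjection ηv = 0 := by
    rw [Submodule.starProjection_apply_eq_zero_iff, Submodule.orthogonal_closure]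
    rw [Submodule.mem_orthogonal']
    intro u hu
    induction hu using Submodule.span_induction with
    | mem w hw =>
      obtain ⟨b, hb, rfl⟩ := hw
      exact h0 b hb
    | zero => exact inner_zero_right _
    | add u v _ _ hu hv => rw [inner_add_right, hu, hv, add_zero]
    | smul r u _ hu => rw [inner_smul_right, hu, mul_zero]
  have key : ⟪ηv, amp T ξv⟫_ℂ =
      ⟪ηv, (amp T * V.starProjection - V.starProjection * amp T) ξv⟫_ℂ := by
    rw [sub_apply, inner_sub_right]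
    simp only [ContinuousLinearMap.mul_apply]
    rw [Submodule.starProjection_eq_self_iff.2 hξV,
      ← Submodule.inner_starProjection_left_eq_right, hηV, inner_zero_left, sub_zero]
  rw [key]
  refine (inner_op_le _ _ _).trans ?_
  gcongr
  exact (hT _ hP).trans (mul_le_of_le_one_right hc V.starProjection_norm_le)

omit [Group Γ] in
/-- Compression of operators to a finite-dimensional subspace. -/
def compr (K : Submodule ℂ (Hl2 Γ)) [FiniteDimensional ℂ K] :
    (Hl2 Γ →L[ℂ] Hl2 Γ) →ₗ[ℂ] (K →L[ℂ] K) :=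
  haveI : CompleteSpace K := FiniteDimensional.complete ℂ K
  { toFun := fun S => K.orthogonalProjectionOnto.comp (S.comp K.subtypeL)
    map_add' := fun S S' => by ext v; simp
    map_smul' := fun r S => by ext v; simp }

omit [Group Γ] in
lemma inner_compr (K : Submodule ℂ (Hl2 Γ)) [FiniteDimensional ℂ K]
    (S : Hl2 Γ →L[ℂ] Hl2 Γ) (x y : K) : ⟪x, compr K S y⟫_ℂ = ⟪(x : Hl2 Γ), S y⟫_ℂ := by
  haveI : CompleteSpace K := FiniteDimensional.complete ℂ K
  show ⟪x, K.orthogonalProjectionOnto (S y)⟫_ℂ = _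
  rw [Submodule.inner_orthogonalProjectionOnto_eq_of_mem_left]

/-- The finite-dimensional stage of the distance formula. -/
lemma arveson_stage (T : Hl2 Γ →L[ℂ] Hl2 Γ) (c δ : ℝ) (hc : 0 ≤ c) (hδ : 0 < δ)
    (hT : ∀ x ∈ Mamp Γ, ‖amp T * x - x * amp T‖ ≤ c * ‖x‖) (K : Submodule ℂ (Hl2 Γ))
    [FiniteDimensional ℂ K] :
    ∃ b ∈ M₀' Γ, ∀ x ∈ K, ∀ y ∈ K, ‖⟪x, (T - b) y⟫_ℂ‖ ≤ (c + δ) * ‖x‖ * ‖y‖ := by
  classical
  let W : Submodule ℂ (K →L[ℂ] K) := (M₀'sub Γ).map (compr K)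
  obtain ⟨w, ⟨b, hb, rfl⟩, hw⟩ := exists_near_of_dual W (compr K T) c δ hc hδ fun f hf hf0 => by
    obtain ⟨ξ, η, hfv, hξ, hη⟩ := functional_vectors f hf
    let ξv : Hamp Γ := ∑ i : Fin (Module.finrank ℂ K), inc (i : ℕ) (ξ i : Hl2 Γ)
    let ηv : Hamp Γ := ∑ i : Fin (Module.finrank ℂ K), inc (i : ℕ) (η i : Hl2 Γ)
    have pair : ∀ S : Hl2 Γ →L[ℂ] Hl2 Γ, ⟪ηv, amp S ξv⟫_ℂ = f (compr K S) := by
      intro S
      rw [hfv]
      simp only [ηv, sum_inner, inner_inc, amp_apply]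
      refine Finset.sum_congr rfl fun i _ => ?_
      have : ξv (i : ℕ) = (ξ i : Hl2 Γ) := by
        simp only [ξv, lp.coeFn_sum, Finset.sum_apply, inc_apply]
        rw [Finset.sum_eq_single i]
        · simp
        · intro j _ hj
          rw [if_neg (fun h => hj (Fin.ext h.symm))]
        · exact fun h => absurd (Finset.mem_univ i) h
      rw [this, inner_compr]
    have nrm : ∀ w : Fin (Module.finrank ℂ K) → K, ∑ i, ‖w i‖ ^ 2 ≤ 1 →
        ‖∑ i : Fin (Module.finrank ℂ K), inc (i : ℕ) (w i : Hl2 Γ)‖ ≤ 1 := by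
      intro w hw
      refine le_of_pow_le_pow_left₀ two_ne_zero zero_le_one ?_
      rw [one_pow, norm_sum_sq_of_orth]
      · refine le_trans (le_of_eq (Finset.sum_congr rfl fun i _ => ?_)) hw
        rw [norm_inc_apply]; rfl
      · intro i _ j _ hij
        rw [inner_inc, inc_apply, if_neg (fun h => hij (Fin.ext h)), inner_zero_right]
    rw [← pair]
    refine (pairing_le T c hc hT ξv ηv fun b hb => ?_).trans ?_
    · rw [pair]; exact hf0 _ (Submodule.mem_map_of_mem hb)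
    · calc c * ‖ηv‖ * ‖ξv‖ ≤ c * 1 * 1 := by
            gcongr
            · exact nrm η hη
            · exact nrm ξ hξ
        _ = c := by ring
  refine ⟨b, hb, fun x hx y hy => ?_⟩
  have : ⟪x, (T - b) y⟫_ℂ = ⟪(⟨x, hx⟩ : K), (compr K T - compr K b) ⟨y, hy⟩⟫_ℂ := by
    rw [← map_sub, inner_compr]
  rw [this]
  refine (norm_inner_le_norm _ _).trans ?_
  have h1 : ‖(compr K T - compr K b) ⟨y, hy⟩‖ ≤ (c + δ) * ‖y‖ :=
    (ContinuousLinearMap.le_opNorm _ _).trans (mul_le_mul_of_nonneg_right hw (norm_nonneg _))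
  calc ‖(⟨x, hx⟩ : K)‖ * ‖(compr K T - compr K b) ⟨y, hy⟩‖ ≤ ‖x‖ * ((c + δ) * ‖y‖) :=
        mul_le_mul_of_nonneg_left h1 (norm_nonneg _)
    _ = _ := by ring

/-- The distance formula: an operator almost commuting with the amplified algebra is near the
commutant. -/
theorem arveson (T : Hl2 Γ →L[ℂ] Hl2 Γ) (c δ : ℝ) (hc : 0 ≤ c) (hδ : 0 < δ)
    (hT : ∀ x ∈ Mamp Γ, ‖amp T * x - x * amp T‖ ≤ c * ‖x‖) :
    ∃ b ∈ M₀' Γ, ‖T - b‖ ≤ c + δ := by
  classical
  have hb : ∀ S : Finset (Hl2 Γ), ∃ b ∈ M₀' Γ, ∀ x ∈ S, ∀ y ∈ S,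
      ‖⟪x, (T - b) y⟫_ℂ‖ ≤ (c + δ) * ‖x‖ * ‖y‖ := by
    intro S
    haveI : FiniteDimensional ℂ (Submodule.span ℂ (S : Set (Hl2 Γ))) :=
      FiniteDimensional.span_finset ℂ S
    obtain ⟨b, hb, hb'⟩ := arveson_stage T c δ hc hδ hT (Submodule.span ℂ (S : Set (Hl2 Γ)))
    exact ⟨b, hb, fun x hx y hy => hb' x (Submodule.subset_span hx) y (Submodule.subset_span hy)⟩
  choose b hbM hbb using hb
  let U : Ultrafilter (Finset (Hl2 Γ)) := Ultrafilter.of atTop
  have hU : (U : Filter (Finset (Hl2 Γ))) ≤ atTop := Ultrafilter.of_le _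
  have hev : ∀ x y : Hl2 Γ, ∀ᶠ S in (U : Filter (Finset (Hl2 Γ))),
      ‖⟪x, (T - b S) y⟫_ℂ‖ ≤ (c + δ) * ‖x‖ * ‖y‖ := fun x y =>
    hU ((eventually_ge_atTop {x, y}).mono fun S hS =>
      hbb S x (hS (by simp)) y (hS (by simp)))
  obtain ⟨E, hE, hEt⟩ := exists_weak_lim U (fun S => T - b S) (c + δ) (by linarith) hev
  refine ⟨T - E, ?_, by simpa using hE⟩
  intro x hx
  refine weak_lim_commute (f := b) (l := (U : Filter (Finset (Hl2 Γ)))) (fun u v => ?_)
    (Eventually.of_forall fun S => hbM S x hx)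
  have := (tendsto_const_nhds (x := ⟪u, T v⟫_ℂ)).sub (hEt u v)
  simpa only [sub_apply, inner_sub_right, sub_sub_cancel] using this

end group

end Vale.Agent.P096
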