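import Vale.Agent.P096.Amp
import Mathlib.Logic.Equiv.Fin.Basic

/-!
# The linear theorem for `L(Γ) ⊗ B(ℓ²)`
-/

noncomputable section

namespace Vale.Agent.P096

open scoped InnerProductSpace ComplexConjugate Topology ENNReal
open Filter

variable {Γ : Type*}

/-- Rotation of the first `N + 1` natural numbers. -/
def rot (N : ℕ) (m : Fin (N + 1)) : ℕ ≃ ℕ :=
  (Equiv.addRight m : Equiv.Perm (Fin (N + 1))).extendDomain Fin.equivSubtype

lemma rot_of_le (N : ℕ) (m i : Fin (N + 1)) : rot N m (i : ℕ) = ((i + m : Fin (N + 1)) : ℕ) :=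
  Equiv.Perm.extendDomain_apply_image _ Fin.equivSubtype i

/-- A signed permutation of the coordinates. -/
def sperm (e : ℕ ≃ ℕ) (ε : ℕ → ℂ) (hε : ∀ i, ‖ε i‖ = 1) : Hamp Γ →L[ℂ] Hamp Γ :=
  LinearMap.mkContinuous
    { toFun := fun f => ⟨fun i => ε i • f (e i), by
        have h := (lp.memℓp f).summable (p := 2) (by norm_num)
        refine memℓp_gen ((e.summable_iff.2 h).congr fun i => ?_)
        simp [norm_smul, hε]⟩
      map_add' := fun f g => by
        refine lp.ext (funext fun i => ?_)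
        exact smul_add (ε i) (f (e i)) (g (e i))
      map_smul' := fun c f => by
        refine lp.ext (funext fun i => ?_)
        exact smul_comm (ε i) c (f (e i)) }
    1 fun f => by
      have h2 : 0 < (2 : ℝ≥0∞).toReal := by norm_num
      rw [one_mul, lp.norm_eq_tsum_rpow h2, lp.norm_eq_tsum_rpow h2]
      refine le_of_eq (congrArg (· ^ (1 / (2 : ℝ≥0∞).toReal)) ?_)
      refine Eq.trans ?_ (e.tsum_eq fun i => ‖f i‖ ^ (2 : ℝ≥0∞).toReal)
      exact tsum_congr fun i => by simp [norm_smul, hε]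

lemma sperm_apply (e : ℕ ≃ ℕ) (ε : ℕ → ℂ) (hε : ∀ i, ‖ε i‖ = 1) (f : Hamp Γ) (i : ℕ) :
    sperm e ε hε f i = ε i • f (e i) := rfl

lemma norm_sperm_le (e : ℕ ≃ ℕ) (ε : ℕ → ℂ) (hε : ∀ i, ‖ε i‖ = 1) :
    ‖(sperm e ε hε : Hamp Γ →L[ℂ] Hamp Γ)‖ ≤ 1 :=
  LinearMap.mkContinuous_norm_le _ zero_le_one _

lemma sperm_inc (e : ℕ ≃ ℕ) (ε : ℕ → ℂ) (hε : ∀ i, ‖ε i‖ = 1) (j : ℕ) (v : Hl2 Γ) :
    sperm e ε hε (inc (e j) v) = inc j (ε j • v) := by
  refine lp.ext (funext fun i => ?_)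
  rw [sperm_apply, inc_apply, inc_apply]
  by_cases h : i = j
  · subst h; simp
  · rw [if_neg h, if_neg (fun h' => h (e.injective h')), smul_zero]

lemma star_sperm (e : ℕ ≃ ℕ) (ε : ℕ → ℂ) (hε : ∀ i, ‖ε i‖ = 1) :
    star (sperm e ε hε : Hamp Γ →L[ℂ] Hamp Γ) =
      sperm e.symm (fun i => conj (ε (e.symm i))) (fun i => by rw [RCLike.norm_conj, hε]) := by
  rw [ContinuousLinearMap.star_eq_adjoint]
  refine ((ContinuousLinearMap.eq_adjoint_iff _ _).2 fun x y => ?_).symm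
  rw [lp.inner_eq_tsum, lp.inner_eq_tsum, ← e.tsum_eq (fun i => ⟪_, y i⟫_ℂ)]
  refine tsum_congr fun i => ?_
  rw [sperm_apply, sperm_apply, inner_smul_left, inner_smul_right, e.symm_apply_apply,
    Complex.conj_conj]

lemma star_sperm_mul (e : ℕ ≃ ℕ) (ε : ℕ → ℂ) (hε : ∀ i, ‖ε i‖ = 1) :
    star (sperm e ε hε : Hamp Γ →L[ℂ] Hamp Γ) * sperm e ε hε = 1 := by
  rw [star_sperm]
  refine ContinuousLinearMap.ext fun f => lp.ext (funext fun i => ?_)
  simp only [ContinuousLinearMap.mul_apply, sperm_apply, smul_smul, e.apply_symm_apply,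
    one_apply_eq_self]
  rw [Complex.conj_mul', hε]
  simp

variable [Group Γ]

lemma sperm_mem (e : ℕ ≃ ℕ) (ε : ℕ → ℂ) (hε : ∀ i, ‖ε i‖ = 1) :
    (sperm e ε hε : Hamp Γ →L[ℂ] Hamp Γ) ∈ Mamp Γ := by
  rw [mem_Mamp]
  intro g
  refine ContinuousLinearMap.ext fun f => lp.ext (funext fun i => ?_)
  simp [ContinuousLinearMap.mul_apply, sperm_apply]

/-- The signs attached to a Boolean vector, extended by one. -/
def sext {N : ℕ} (ω : Fin (N + 1) → Bool) (i : ℕ) : ℂ :=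
  if h : i < N + 1 then sgn (ω ⟨i, h⟩) else 1

lemma norm_sext {N : ℕ} (ω : Fin (N + 1) → Bool) (i : ℕ) : ‖sext ω i‖ = 1 := by
  unfold sext; split
  · exact norm_sgn _
  · exact norm_one

lemma sext_fin {N : ℕ} (ω : Fin (N + 1) → Bool) (i : Fin (N + 1)) :
    sext ω (i : ℕ) = sgn (ω i) := by
  rw [sext, dif_pos i.2]

/-- The averaging unitaries. -/
def avU (Γ : Type*) {N : ℕ} (p : (Fin (N + 1) → Bool) × Fin (N + 1)) : Hamp Γ →L[ℂ] Hamp Γ :=
  sperm (rot N p.2) (sext p.1) (norm_sext p.1)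

lemma avU_mem {N : ℕ} (p : (Fin (N + 1) → Bool) × Fin (N + 1)) : avU Γ p ∈ Mamp Γ :=
  sperm_mem _ _ _

omit [Group Γ] in
/-- Entries of the average of conjugates. -/
lemma avg_entry {N : ℕ} (h : Hamp Γ →L[ℂ] Hamp Γ) (i l : Fin (N + 1)) (u v : Hl2 Γ) :
    ∑ p : (Fin (N + 1) → Bool) × Fin (N + 1),
      ⟪inc (i : ℕ) u, (avU Γ p * h * star (avU Γ p)) (inc (l : ℕ) v)⟫_ℂ
    = if i = l then (2 : ℂ) ^ (N + 1) * ∑ m : Fin (N + 1), ⟪u, h (inc (m : ℕ) v) (m : ℕ)⟫_ℂ
      else 0 := by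
  have e : ∀ p : (Fin (N + 1) → Bool) × Fin (N + 1),
      ⟪inc (i : ℕ) u, (avU Γ p * h * star (avU Γ p)) (inc (l : ℕ) v)⟫_ℂ =
        sgn (p.1 i) * sgn (p.1 l) *
          ⟪u, h (inc ((l + p.2 : Fin (N + 1)) : ℕ) v) ((i + p.2 : Fin (N + 1)) : ℕ)⟫_ℂ := by
    intro p
    have hs : star (avU Γ p) (inc (l : ℕ) v) =
        inc ((l + p.2 : Fin (N + 1)) : ℕ) (conj (sgn (p.1 l)) • v) := by
      refine lp.ext (funext fun k => ?_)
      rw [avU, star_sperm, sperm_apply, inc_apply, inc_apply]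
      by_cases hk : k = ((l + p.2 : Fin (N + 1)) : ℕ)
      · rw [if_pos hk, hk]
        have h1 : (rot N p.2).symm ((l + p.2 : Fin (N + 1)) : ℕ) = (l : ℕ) := by
          rw [Equiv.symm_apply_eq, rot_of_le]
        rw [h1, if_pos rfl, sext_fin]
      · rw [if_neg hk, if_neg, smul_zero]
        intro h1
        apply hk
        rw [Equiv.symm_apply_eq, rot_of_le] at h1
        exact h1
    simp only [ContinuousLinearMap.mul_apply, inner_inc, hs]
    rw [avU, sperm_apply, rot_of_le, sext_fin, map_smul, map_smul, lp.coeFn_smul, Pi.smul_apply,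
      inner_smul_right, inner_smul_right]
    have hc : conj (sgn (p.1 l)) = sgn (p.1 l) := by cases p.1 l <;> simp [sgn]
    rw [hc]
    ring
  rw [Finset.sum_congr rfl fun p _ => e p, Fintype.sum_prod_type_right]
  simp only [← Finset.sum_mul, sum_sgn_mul]
  split_ifs with hil
  · subst hil
    rw [← Finset.mul_sum]
    congr 1
    exact Equiv.sum_comp (Equiv.addLeft i) fun m : Fin (N + 1) => ⟪u, h (inc (m : ℕ) v) (m : ℕ)⟫_ℂ
  · simp

/-- Reduction to an amplified operator by averaging over signed rotations. -/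
theorem reduce_amp (h : Hamp Γ →L[ℂ] Hamp Γ) (D : ℝ) (hD : 0 ≤ D)
    (hyp : ∀ x ∈ Mamp Γ, ∃ a ∈ Mamp Γ, ‖(h * x - x * h) - a‖ ≤ D * ‖x‖) :
    ∃ h₀ : Hl2 Γ →L[ℂ] Hl2 Γ, ∃ a ∈ Mamp Γ, ‖h₀‖ ≤ ‖h‖ ∧ ‖a‖ ≤ 2 * ‖h‖ + D ∧
      ‖h - amp h₀ - a‖ ≤ D := by
  classical
  let ι := fun N : ℕ => (Fin (N + 1) → Bool) × Fin (N + 1)
  have step : ∀ N (p : ι N), ∃ a ∈ Mamp Γ, ‖a‖ ≤ 2 * ‖h‖ + D ∧
      ‖(h - avU Γ p * h * star (avU Γ p)) - a‖ ≤ D := by
    intro N p
    set U := avU Γ p with hU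
    have hU1 : ‖star U‖ ≤ 1 := by
      rw [hU, avU, star_sperm]; exact norm_sperm_le _ _ _
    have hU0 : ‖U‖ ≤ 1 := norm_sperm_le _ _ _
    have hUU : U * star U = 1 := by
      have := star_sperm_mul (Γ := Γ) (rot N p.2).symm (fun i => conj (sext p.1 ((rot N p.2).symm i)))
        (fun i => by rw [RCLike.norm_conj, norm_sext])
      rw [← star_sperm (rot N p.2) (sext p.1) (norm_sext p.1), star_star] at this
      exact this
    obtain ⟨a, ha, ha'⟩ := hyp U (avU_mem p)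
    have ha1 : ‖(h * U - U * h) - a‖ ≤ D := ha'.trans (mul_le_of_le_one_right hD hU0)
    refine ⟨a * star U, Set.mul_mem_centralizer ha (star_mem_Mamp (avU_mem p)), ?_, ?_⟩
    · refine (norm_mul_le _ _).trans ((mul_le_of_le_one_right (norm_nonneg _) hU1).trans ?_)
      have e : a = (h * U - U * h) - ((h * U - U * h) - a) := by abel
      rw [e]
      refine (norm_sub_le _ _).trans (add_le_add ((norm_sub_le _ _).trans ?_) ha1)
      have h1 := norm_mul_le h U
      have h2 := norm_mul_le U h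
      nlinarith [norm_nonneg h]
    · have e : (h - U * h * star U) - a * star U = ((h * U - U * h) - a) * star U := by
        rw [sub_mul, sub_mul, mul_assoc h, hUU, mul_one]
      rw [e]
      exact (norm_mul_le _ _).trans ((mul_le_of_le_one_right (norm_nonneg _) hU1).trans ha1)
  choose av hav hna hne using step
  let w : ℕ → ℂ := fun N => (Fintype.card (ι N) : ℂ)⁻¹
  have hw : ∀ N, w N * (Fintype.card (ι N) : ℂ) = 1 := fun N =>
    inv_mul_cancel₀ (by exact_mod_cast Fintype.card_ne_zero)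
  have hwn : ∀ N, ‖w N‖ * (Fintype.card (ι N) : ℝ) = 1 := fun N => by
    have := congrArg (‖·‖) (hw N)
    simpa using this
  have avg_le : ∀ (f : ∀ N, ι N → Hamp Γ →L[ℂ] Hamp Γ) (C : ℝ),
      (∀ N p, ‖f N p‖ ≤ C) → ∀ N, ‖w N • ∑ p, f N p‖ ≤ C := by
    intro f C hf N
    rw [norm_smul]
    refine (mul_le_mul_of_nonneg_left ((norm_sum_le _ _).trans
      (Finset.sum_le_sum fun p _ => hf N p)) (norm_nonneg _)).trans (le_of_eq ?_)
    rw [Finset.sum_const, Finset.card_univ, nsmul_eq_mul, ← mul_assoc, hwn, one_mul]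
  let hh := fun N => w N • ∑ p : ι N, avU Γ p * h * star (avU Γ p)
  let aa := fun N => w N • ∑ p : ι N, av N p
  let dd := fun N : ℕ => ((N : ℂ) + 1)⁻¹ • ∑ m : Fin (N + 1), corner (m : ℕ) (m : ℕ) h
  have hhn : ∀ N, ‖hh N‖ ≤ ‖h‖ := avg_le _ _ fun N p => by
    refine (norm_mul_le _ _).trans ((mul_le_of_le_one_right (norm_nonneg _) ?_).trans ?_)
    · rw [avU, star_sperm]; exact norm_sperm_le _ _ _
    · exact (norm_mul_le _ _).trans (mul_le_of_le_one_left (norm_nonneg _) (norm_sperm_le _ _ _))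
  have hddn : ∀ N, ‖dd N‖ ≤ ‖h‖ := by
    intro N
    rw [norm_smul]
    refine (mul_le_mul_of_nonneg_left ((norm_sum_le _ _).trans
      (Finset.sum_le_sum fun m _ => norm_corner_le _ _ h)) (norm_nonneg _)).trans (le_of_eq ?_)
    rw [Finset.sum_const, Finset.card_univ, Fintype.card_fin, nsmul_eq_mul, norm_inv, ← mul_assoc]
    have : ‖((N : ℂ) + 1)‖ = (N : ℝ) + 1 := by
      rw [show ((N : ℂ) + 1) = (((N : ℝ) + 1 : ℝ) : ℂ) by push_cast; rfl, Complex.norm_real,
        Real.norm_of_nonneg (by positivity)]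
    rw [this]
    push_cast
    rw [inv_mul_cancel₀ (by positivity), one_mul]
  let U : Ultrafilter ℕ := Ultrafilter.of atTop
  have hU : (U : Filter ℕ) ≤ atTop := Ultrafilter.of_le _
  obtain ⟨h', -, hh'⟩ := exists_weak_lim U hh ‖h‖ (norm_nonneg _) fun x y =>
    Eventually.of_forall fun N => (inner_op_le _ x y).trans (by gcongr; exact hhn N)
  obtain ⟨a', hna', haa'⟩ := exists_weak_lim U aa (2 * ‖h‖ + D) (by positivity) fun x y =>
    Eventually.of_forall fun N => (inner_op_le _ x y).trans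
      (by gcongr; exact avg_le _ _ hna N)
  obtain ⟨h₀, hnh₀, hh₀⟩ := exists_weak_lim U dd ‖h‖ (norm_nonneg _) fun x y =>
    Eventually.of_forall fun N => (inner_op_le _ x y).trans (by gcongr; exact hddn N)
  have ha'M : a' ∈ Mamp Γ := by
    rw [mem_Mamp]
    intro g
    refine weak_lim_commute haa' (Eventually.of_forall fun N => ?_)
    simp only [aa, mul_smul_comm, smul_mul_assoc, Finset.mul_sum, Finset.sum_mul]
    exact congrArg _ (Finset.sum_congr rfl fun p _ => mem_Mamp.1 (hav N p) g)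
  have herr : ‖(h - h') - a'‖ ≤ D := by
    refine norm_le_of_inner_le _ _ hD fun x y => ?_
    have t : Tendsto (fun N => ⟪x, ((h - hh N) - aa N) y⟫_ℂ) U (𝓝 ⟪x, ((h - h') - a') y⟫_ℂ) := by
      simp only [sub_apply, inner_sub_right]
      exact (tendsto_const_nhds.sub (hh' x y)).sub (haa' x y)
    refine le_of_tendsto t.norm (Eventually.of_forall fun N =>
      (inner_op_le _ x y).trans ?_)
    have e : (h - hh N) - aa N = w N • ∑ p, ((h - avU Γ p * h * star (avU Γ p)) - av N p) := by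
      simp only [hh, aa, Finset.sum_sub_distrib, smul_sub, Finset.sum_const, Finset.card_univ]
      rw [← Nat.cast_smul_eq_nsmul ℂ, smul_smul, hw, one_smul]
    gcongr
    rw [e]
    exact avg_le (fun N p => _) _ hne N
  have hamp : h' = amp h₀ := by
    refine amp_ext _ _ fun i l v => ext_inner_left ℂ fun u => ?_
    rw [← inner_inc i u (h' _), ← inner_inc i u (amp h₀ _)]
    refine tendsto_nhds_unique (hh' _ _) ?_
    have key : ∀ᶠ N in (U : Filter ℕ), ⟪inc i u, hh N (inc l v)⟫_ℂ =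
        (if i = l then ⟪u, dd N v⟫_ℂ else 0) := by
      refine hU ((eventually_ge_atTop (max i l)).mono fun N hN => ?_)
      have hi : i < N + 1 := Nat.lt_succ_of_le ((le_max_left i l).trans hN)
      have hl : l < N + 1 := Nat.lt_succ_of_le ((le_max_right i l).trans hN)
      have := avg_entry h ⟨i, hi⟩ ⟨l, hl⟩ u v
      simp only [hh, smul_apply, sum_apply, inner_smul_right, inner_sum]
      rw [this]
      by_cases hil : i = l
      · subst hil
        rw [if_pos rfl, if_pos rfl]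
        simp only [dd, smul_apply, sum_apply, inner_smul_right, inner_sum, corner_apply]
        rw [← mul_assoc]
        congr 1
        simp only [w, ι, Fintype.card_prod, Fintype.card_fun, Fintype.card_bool, Fintype.card_fin]
        push_cast
        field_simp
      · rw [if_neg hil, if_neg (fun h => hil (Fin.mk.inj h)), mul_zero]
    refine Tendsto.congr' (key.mono fun N hN => hN.symm) ?_
    by_cases hil : i = l
    · subst hil
      simp only [if_pos rfl, inner_inc, amp_apply, inc_apply]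
      exact hh₀ u v
    · simp only [if_neg hil, inner_inc, amp_apply, inc_apply, map_zero, inner_zero_right]
      exact tendsto_const_nhds
  exact ⟨h₀, a', ha'M, hnh₀, hna', by rw [← hamp]; exact herr⟩

omit [Group Γ] in
/-- A double commutator bound. -/
lemma comm_comm_le {A : Type*} [NormedRing A] (H R x a : A) (hxg : R * x = x * R)
    (hag : R * a = a * R) (hR1 : ‖R‖ ≤ 1) :
    ‖(H * R - R * H) * x - x * (H * R - R * H)‖ ≤ 2 * ‖(H * x - x * H) - a‖ := by
  have e : (H * R - R * H) * x - x * (H * R - R * H) =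
      ((H * x - x * H) - a) * R - R * ((H * x - x * H) - a) := by
    simp only [sub_mul, mul_sub, mul_assoc, hxg]
    rw [← mul_assoc R x H, hxg, ← hag, mul_assoc]
    abel
  rw [e]
  refine (norm_sub_le _ _).trans ?_
  have h1 := (norm_mul_le ((H * x - x * H) - a) R).trans
    (mul_le_of_le_one_right (norm_nonneg _) hR1)
  have h2 := (norm_mul_le R ((H * x - x * H) - a)).trans
    (mul_le_of_le_one_left (norm_nonneg _) hR1)
  linarith

/-- The linear stability theorem for `L(Γ) ⊗ B(ℓ²)`. -/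
theorem linear_amp (hΓ : IsPowers Γ) (h : Hamp Γ →L[ℂ] Hamp Γ) (D : ℝ) (hD : 0 < D)
    (hyp : ∀ x ∈ Mamp Γ, ∃ a ∈ Mamp Γ, ‖(h * x - x * h) - a‖ ≤ D * ‖x‖) :
    ∃ a ∈ Mamp Γ, ∃ b ∈ Set.centralizer (Mamp Γ), ‖a‖ ≤ 5 * ‖h‖ + 5 * D ∧
      ‖b‖ ≤ 2 * ‖h‖ + 8 * D ∧ ‖h - a - b‖ ≤ 88 * √(‖h‖ * D) + 189 * D := by
  obtain ⟨h₀, a₁, ha₁, hn₀, hna₁, he₁⟩ := reduce_amp h D hD.le hyp
  have hyp' : ∀ x ∈ Mamp Γ, ∃ a ∈ Mamp Γ,
      ‖(amp h₀ * x - x * amp h₀) - a‖ ≤ 3 * D * ‖x‖ := by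
    intro x hx
    obtain ⟨a, ha, ha'⟩ := hyp x hx
    refine ⟨a - (a₁ * x - x * a₁), ?_, ?_⟩
    · rw [mem_Mamp] at *
      intro g
      have p1 := ha g
      have p2 : amp (Rt g) * (a₁ * x) = (a₁ * x) * amp (Rt g) := by
        rw [← mul_assoc, ha₁ g, mul_assoc, hx g, mul_assoc]
      have p3 : amp (Rt g) * (x * a₁) = (x * a₁) * amp (Rt g) := by
        rw [← mul_assoc, hx g, mul_assoc, ha₁ g, mul_assoc]
      simp only [mul_sub, sub_mul, p1, p2, p3]
    · have e : (amp h₀ * x - x * amp h₀) - (a - (a₁ * x - x * a₁)) =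
          ((h * x - x * h) - a) - ((h - amp h₀ - a₁) * x - x * (h - amp h₀ - a₁)) := by
        simp only [sub_mul, mul_sub]; abel
      rw [e]
      refine (norm_sub_le _ _).trans ?_
      have h1 := norm_sub_le ((h - amp h₀ - a₁) * x) (x * (h - amp h₀ - a₁))
      have h2 := norm_mul_le (h - amp h₀ - a₁) x
      have h3 := norm_mul_le x (h - amp h₀ - a₁)
      nlinarith [norm_nonneg x, mul_le_mul_of_nonneg_right he₁ (norm_nonneg x)]
  have hM₀ : ∀ x ∈ M₀ Γ, ∃ a ∈ M₀ Γ, ‖(h₀ * x - x * h₀) - a‖ ≤ 4 * D * ‖x‖ := by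
    intro x hx
    obtain ⟨a, ha, ha'⟩ := hyp' (emb x) (emb_mem hx)
    refine ⟨corner 0 0 a, corner_mem ha 0 0, ?_⟩
    have e : (h₀ * x - x * h₀) - corner 0 0 a =
        corner 0 0 ((amp h₀ * emb x - emb x * amp h₀) - a) := by
      refine ContinuousLinearMap.ext fun v => ?_
      simp [emb, ContinuousLinearMap.mul_apply, amp_inc, inc_apply]
    rw [e]
    refine (norm_corner_le _ _ _).trans (ha'.trans ?_)
    nlinarith [norm_nonneg x, mul_le_mul_of_nonneg_left (norm_emb_le x) hD.le,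
      norm_nonneg (emb x)]
  have hR₀ : ∀ g : Γ, ∃ b ∈ M₀' Γ, ‖(h₀ * Rt g - Rt g * h₀) - b‖ ≤ 2 * (4 * D) := by
    intro g
    have hc : ∀ x ∈ Mamp Γ,
        ‖amp (h₀ * Rt g - Rt g * h₀) * x - x * amp (h₀ * Rt g - Rt g * h₀)‖ ≤ 6 * D * ‖x‖ := by
      intro x hx
      obtain ⟨a, ha, ha'⟩ := hyp' x hx
      have hxg := mem_Mamp.1 hx g
      have hag := mem_Mamp.1 ha g
      rw [amp_sub, amp_mul, amp_mul]
      have hR1 : ‖amp (Rt g)‖ ≤ 1 := (norm_amp_le _).trans (norm_pop_le _)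
      exact (comm_comm_le (amp h₀) (amp (Rt g)) x a hxg hag hR1).trans (by linarith)
    obtain ⟨b, hb, hb'⟩ := arveson _ (6 * D) (2 * D) (by positivity) (by positivity) hc
    exact ⟨b, hb, hb'.trans (le_of_eq (by ring))⟩
  obtain ⟨a, ha, b, hb, hna, hnb, he⟩ := linear_group hΓ h₀ (4 * D) (by positivity) hM₀ hR₀
  refine ⟨a₁ + amp a, Set.add_mem_centralizer ha₁ (amp_mem ha), amp b, amp_commute hb, ?_, ?_, ?_⟩
  · refine (norm_add_le _ _).trans ?_
    linarith [norm_amp_le a]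
  · linarith [norm_amp_le b]
  · have e : h - (a₁ + amp a) - amp b = (h - amp h₀ - a₁) + amp (h₀ - a - b) := by
      rw [amp_sub, amp_sub]; abel
    rw [e]
    refine (norm_add_le _ _).trans ?_
    have h1 : √(‖h₀‖ * (4 * D)) ≤ 2 * √(‖h‖ * D) := by
      rw [show (2 : ℝ) = √4 by rw [show (4 : ℝ) = 2 ^ 2 by norm_num, Real.sqrt_sq]; norm_num,
        ← Real.sqrt_mul (by norm_num)]
      exact Real.sqrt_le_sqrt (by nlinarith [norm_nonneg h₀])
    linarith [norm_amp_le (h₀ - a - b)]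

end Vale.Agent.P096
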