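import Mathlib.Analysis.CStarAlgebra.Basic
import Mathlib.Analysis.Normed.Ring.Units
import Mathlib.Analysis.Normed.Algebra.Basic
import Mathlib.Analysis.Complex.Basic

/-!
# The Cayley transform of a small skew-adjoint element
-/

noncomputable section

namespace Vale.Agent.P096

variable {A : Type*} [NormedRing A] [StarRing A] [CStarRing A] [NormedAlgebra ℂ A]
  [CompleteSpace A] [StarModule ℂ A] [Nontrivial A]

/-- The Cayley transform `(1 - a/2) (1 + a/2)⁻¹`. -/
def cay (a : A) : A := (1 - (2⁻¹ : ℂ) • a) * Ring.inverse (1 + (2⁻¹ : ℂ) • a)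

lemma cay_spec (a : A) (ha : star a = -a) (h : ‖a‖ ≤ 1) :
    cay a ∈ unitary A ∧ ‖cay a - (1 - a)‖ ≤ ‖a‖ ^ 2 ∧
      ∀ y, Commute y a → Commute y (cay a) := by
  set t := (2⁻¹ : ℂ) • a with ht
  have htn : ‖-t‖ < 1 := by
    rw [norm_neg, ht, norm_smul, norm_inv, Complex.norm_two]
    linarith
  let w : Aˣ := Units.oneSub (-t) htn
  have hw : (w : A) = 1 + t := by simp [w]
  have hinv : Ring.inverse (1 + t) = ((w⁻¹ : Aˣ) : A) := by
    rw [← hw, Ring.inverse_unit]
  have hst : star t = -t := by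
    rw [ht, star_smul, ha, smul_neg]
    simp
  have hsw : star (w : A) = 1 - t := by
    rw [hw, star_add, star_one, hst, sub_eq_add_neg]
  let w' : Aˣ := star w
  have hw' : (w' : A) = 1 - t := by rw [← hsw]; rfl
  have hcom : Commute (w : A) (w' : A) := by
    rw [hw, hw']
    show (1 + t) * (1 - t) = (1 - t) * (1 + t)
    noncomm_ring
  have hu : cay a = ((w' * w⁻¹ : Aˣ) : A) := by
    rw [cay, ← ht, hinv, Units.val_mul, hw']
  have hstar : star ((w' * w⁻¹ : Aˣ) : A) = ((w'⁻¹ * w : Aˣ) : A) := by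
    rw [← Units.coe_star, star_mul, star_inv]
    show _ = _
    simp [w']
  refine ⟨?_, ?_, fun y hy => ?_⟩
  · rw [Unitary.mem_iff, hu, hstar, ← Units.val_mul, ← Units.val_mul]
    have hc : w * w' = w' * w := Units.ext hcom
    constructor
    · rw [show w'⁻¹ * w * (w' * w⁻¹) = w'⁻¹ * (w * w') * w⁻¹ by group, hc]
      simp
    · rw [show w' * w⁻¹ * (w'⁻¹ * w) = w' * (w' * w)⁻¹ * w by group, ← hc]
      simp
  · have h1 : cay a - (1 - a) = ((2⁻¹ : ℂ) • (a * a)) * ((w⁻¹ : Aˣ) : A) := by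
      have e : (1 - t) - (1 - a) * (1 + t) = (2⁻¹ : ℂ) • (a * a) := by
        have e2 : a = (2 : ℂ) • t := by rw [ht, smul_smul]; norm_num
        rw [e2]
        simp only [sub_mul, mul_add, mul_one, one_mul, smul_mul_assoc, mul_smul_comm, smul_smul]
        norm_num
        module
      rw [cay, ← ht, hinv, ← e, sub_mul (1 - t) ((1 - a) * (1 + t)), mul_assoc (1 - a), ← hw,
        Units.mul_inv, mul_one]
    have h2 : ‖((w⁻¹ : Aˣ) : A)‖ ≤ 2 := by
      have e : ((w⁻¹ : Aˣ) : A) = 1 - t * ((w⁻¹ : Aˣ) : A) := by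
        have := w.mul_inv
        rw [hw, add_mul, one_mul] at this
        exact eq_sub_of_add_eq this
      have h3 : ‖((w⁻¹ : Aˣ) : A)‖ ≤ 1 + ‖t‖ * ‖((w⁻¹ : Aˣ) : A)‖ := by
        conv_lhs => rw [e]
        refine (norm_sub_le _ _).trans ?_
        rw [CStarRing.norm_one]
        exact add_le_add le_rfl (norm_mul_le _ _)
      have h4 : ‖t‖ ≤ 1 / 2 := by
        rw [ht, norm_smul, norm_inv, Complex.norm_two]; linarith
      nlinarith [norm_nonneg (((w⁻¹ : Aˣ) : A)), norm_nonneg t]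
    rw [h1]
    refine (norm_mul_le _ _).trans ?_
    rw [norm_smul, norm_inv, Complex.norm_two]
    have h5 := norm_mul_le a a
    nlinarith [norm_nonneg (a * a), norm_nonneg a, norm_nonneg (((w⁻¹ : Aˣ) : A)),
      mul_le_mul_of_nonneg_left h2 (norm_nonneg (a * a))]
  · rw [cay, ← ht]
    have h1 : Commute y t := hy.smul_right _
    refine ((Commute.one_right y).sub_right h1).mul_right ?_
    rw [hinv]
    refine Commute.units_inv_right ?_
    rw [hw]
    exact (Commute.one_right y).add_right h1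

end Vale.Agent.P096
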