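import Vale.Agent.P096.Group
import Mathlib.Analysis.CStarAlgebra.Unitary.Span
import Mathlib.Analysis.CStarAlgebra.ContinuousFunctionalCalculus.Commute
import Mathlib.Analysis.CStarAlgebra.ContinuousFunctionalCalculus.Instances
import Mathlib.Analysis.CStarAlgebra.ContinuousFunctionalCalculus.Basic
import Mathlib.Analysis.InnerProductSpace.Positive
import Mathlib.Analysis.InnerProductSpace.StarOrder

/-!
# The centre argument: an almost derivation is almost inner in the 2-norm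

If the commutators of `h` with `M₀` stay within `D` of `M₀`, then the vector map
`x ↦ h x ξ - x h ξ` is, up to a constant times `√(‖h‖ D) + D`, an inner one.
-/

noncomputable section

namespace Vale.Agent.P096

open scoped InnerProductSpace ComplexConjugate

/-- Four unitaries of the centralizer of a star-closed set span each of its elements. -/
lemma four_unitary_centralizer {H : Type*} [NormedAddCommGroup H] [InnerProductSpace ℂ H]
    [CompleteSpace H] [Nontrivial H] (S : Set (H →L[ℂ] H)) (hS : ∀ R ∈ S, star R ∈ S)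
    (x : H →L[ℂ] H) (hx : x ∈ Set.centralizer S) :
    ∃ (u : Fin 4 → H →L[ℂ] H) (c : Fin 4 → ℂ), x = ∑ i, c i • u i ∧
      (∀ i, ‖c i‖ ≤ ‖x‖ / 2) ∧ ∀ i, u i ∈ Set.centralizer S ∧ u i ∈ unitary (H →L[ℂ] H) := by
  rcases eq_or_ne x 0 with rfl | hne
  · exact ⟨fun _ => 1, 0, by simp, fun i => by simp,
      fun i => ⟨Set.one_mem_centralizer, one_mem _⟩⟩
  · have hsum := CStarAlgebra.norm_smul_two_inv_smul_add_four_unitary x hne
    extract_lets u₁ u₂ at hsum
    have hxr : ∀ R ∈ S, Commute (‖x‖⁻¹ • x) R := fun R hR =>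
      Commute.smul_left (hx R hR).symm _
    have hxs : ∀ R ∈ S, Commute (star (‖x‖⁻¹ • x)) R := fun R hR => by
      simpa using (hxr _ (hS R hR)).star_star
    have key : ∀ (a : selfAdjoint (H →L[ℂ] H)) (ha : ‖a‖ ≤ 1),
        (∀ R ∈ S, Commute (a : H →L[ℂ] H) R) →
        ((selfAdjoint.unitarySelfAddISMul a ha : H →L[ℂ] H)) ∈ Set.centralizer S := by
      intro a ha hc R hR
      have h1 : Commute (CFC.sqrt (1 - (a : H →L[ℂ] H) ^ 2)) R := by
        refine Commute.cfcₙ_nnreal ?_ _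
        exact (Commute.one_left _).sub_left ((hc R hR).pow_left 2)
      rw [selfAdjoint.unitarySelfAddISMul_coe]
      exact ((hc R hR).add_left (h1.smul_left Complex.I)).symm
    have m1 : (u₁ : H →L[ℂ] H) ∈ Set.centralizer S := by
      refine key _ _ fun R hR => ?_
      rw [realPart_apply_coe]
      exact ((hxr R hR).add_left (hxs R hR)).smul_left _
    have m2 : (u₂ : H →L[ℂ] H) ∈ Set.centralizer S := by
      refine key _ _ fun R hR => ?_
      rw [imaginaryPart_apply_coe]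
      exact (((hxr R hR).sub_left (hxs R hR)).smul_left _).smul_left _
    have hstar : ∀ y ∈ Set.centralizer S, star y ∈ Set.centralizer S := fun y hy R hR => by
      have h := (Commute.star_star (hy (star R) (hS R hR)))
      rw [star_star] at h
      exact h
    refine ⟨![(u₁ : _), star (u₁ : H →L[ℂ] H), (u₂ : _), star (u₂ : H →L[ℂ] H)],
      ![‖x‖ * 2⁻¹, ‖x‖ * 2⁻¹, ‖x‖ * 2⁻¹ * Complex.I, ‖x‖ * 2⁻¹ * Complex.I], ?_, ?_, ?_⟩
    · conv_lhs => rw [hsum]
      simp [Fin.sum_univ_four, ← Complex.coe_smul, Unitary.coe_star]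
      module
    · intro i; fin_cases i <;> simp [div_eq_mul_inv]
    · intro i
      fin_cases i
      · exact ⟨m1, u₁.2⟩
      · exact ⟨hstar _ m1, Unitary.star_mem u₁.2⟩
      · exact ⟨m2, u₂.2⟩
      · exact ⟨hstar _ m2, Unitary.star_mem u₂.2⟩

variable {Γ : Type*} [Group Γ]

instance : Nontrivial (Hl2 Γ) := nontrivial_of_ne (dlt 1) 0 fun h => by
  simpa [h] using norm_dlt (1 : Γ)

/-- Four unitaries of `M₀` span each of its elements, with controlled coefficients. -/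
lemma exists_four_unitary {x : Hl2 Γ →L[ℂ] Hl2 Γ} (hx : x ∈ M₀ Γ) :
    ∃ (u : Fin 4 → Hl2 Γ →L[ℂ] Hl2 Γ) (c : Fin 4 → ℂ), x = ∑ i, c i • u i ∧
      (∀ i, ‖c i‖ ≤ ‖x‖ / 2) ∧ ∀ i, u i ∈ M₀ Γ ∧ u i ∈ unitary (Hl2 Γ →L[ℂ] Hl2 Γ) := by
  have hS : ∀ R ∈ Set.range (Rt (Γ := Γ)), star R ∈ Set.range (Rt (Γ := Γ)) := by
    rintro R ⟨g, rfl⟩; exact ⟨g⁻¹, (star_Rt g).symm⟩
  exact four_unitary_centralizer _ hS x hx

lemma unitary_apply_norm {u : Hl2 Γ →L[ℂ] Hl2 Γ} (hu : u ∈ unitary (Hl2 Γ →L[ℂ] Hl2 Γ))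
    (z : Hl2 Γ) : ‖u z‖ = ‖z‖ := by
  refine le_antisymm ?_ ?_
  · exact (u.le_opNorm z).trans (mul_le_of_le_one_left (norm_nonneg z)
      (le_of_eq (CStarRing.norm_of_mem_unitary hu)))
  · have h1 : z = star u (u z) := by
      rw [← ContinuousLinearMap.mul_apply, Unitary.star_mul_self_of_mem hu]; rfl
    conv_lhs => rw [h1]
    exact ((star u).le_opNorm _).trans (mul_le_of_le_one_left (norm_nonneg _)
      (le_of_eq (CStarRing.norm_of_mem_unitary (Unitary.star_mem hu))))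

lemma Qop_unitary {u : Hl2 Γ →L[ℂ] Hl2 Γ} (hm : u ∈ M₀ Γ)
    (hu : u ∈ unitary (Hl2 Γ →L[ℂ] Hl2 Γ)) (z : Hl2 Γ) : ‖Qop u z‖ = ‖z‖ := by
  refine le_antisymm ?_ ?_
  · exact ((Qop u).le_opNorm z).trans (mul_le_of_le_one_left (norm_nonneg z)
      ((norm_Qop_le u).trans (le_of_eq (CStarRing.norm_of_mem_unitary hu))))
  · have h1 : z = Qop (star u) (Qop u z) := by
      rw [← ContinuousLinearMap.mul_apply, Qop_star hm hu]; rfl
    conv_lhs => rw [h1]
    exact ((Qop (star u)).le_opNorm _).trans (mul_le_of_le_one_left (norm_nonneg _)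
      ((norm_Qop_le _).trans (le_of_eq (CStarRing.norm_of_mem_unitary (Unitary.star_mem hu)))))

/-- The centre argument. -/
theorem center (h : Hl2 Γ →L[ℂ] Hl2 Γ) (D : ℝ) (hD : 0 < D)
    (hyp : ∀ x ∈ M₀ Γ, ∃ a ∈ M₀ Γ, ‖(h * x - x * h) - a‖ ≤ D * ‖x‖) :
    ∃ a : Hl2 Γ, ∀ x ∈ M₀ Γ,
      ‖(h (x (dlt 1)) - x (h (dlt 1))) - (Qop (star x) a - x a)‖
        ≤ 22 * (√(‖h‖ * D) + D) * ‖x‖ := by
  classical
  let U : Type _ := {u : Hl2 Γ →L[ℂ] Hl2 Γ // u ∈ M₀ Γ ∧ u ∈ unitary (Hl2 Γ →L[ℂ] Hl2 Γ)}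
  have hn : ∀ u : U, ∃ a ∈ M₀ Γ, ‖(h * u.1 - u.1 * h) - a‖ ≤ D := by
    intro u
    obtain ⟨a, ha, hb⟩ := hyp u.1 u.2.1
    exact ⟨a, ha, by simpa [CStarRing.norm_of_mem_unitary u.2.2] using hb⟩
  choose n hnM hn using hn
  let ξ : Hl2 Γ := dlt 1
  have hξ : ‖ξ‖ = 1 := norm_dlt 1
  let c : U → Hl2 Γ := fun u => n u (star u.1 ξ)
  have hc : ∀ u, ‖c u‖ ≤ 2 * ‖h‖ + D := by
    intro u
    have h1 : ‖n u‖ ≤ 2 * ‖h‖ + D := by
      have e : n u = (h * u.1 - u.1 * h) - ((h * u.1 - u.1 * h) - n u) := by abel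
      have h3 := norm_mul_le h u.1
      have h4 := norm_mul_le u.1 h
      rw [CStarRing.norm_of_mem_unitary u.2.2] at h3 h4
      calc ‖n u‖ ≤ ‖h * u.1 - u.1 * h‖ + ‖(h * u.1 - u.1 * h) - n u‖ := by
            conv_lhs => rw [e]
            exact norm_sub_le _ _
        _ ≤ (‖h * u.1‖ + ‖u.1 * h‖) + D := add_le_add (norm_sub_le _ _) (hn u)
        _ ≤ _ := by linarith
    calc ‖c u‖ ≤ ‖n u‖ * ‖star u.1 ξ‖ := (n u).le_opNorm _
      _ ≤ (2 * ‖h‖ + D) * 1 := by
          refine mul_le_mul h1 ?_ (norm_nonneg _) (by positivity)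
          rw [unitary_apply_norm (Unitary.star_mem u.2.2), hξ]
      _ = _ := mul_one _
  let mulU : U → U → U := fun u v => ⟨u.1 * v.1, mul_mem_M₀ u.2.1 v.2.1, mul_mem u.2.2 v.2.2⟩
  let T : U → Hl2 Γ → Hl2 Γ := fun u z => u.1 (Qop u.1 z) + c u
  have hT : ∀ u v, ‖T u (c v) - c (mulU u v)‖ ≤ 3 * D := by
    intro u v
    set m := mulU u v
    have e1 : star u.1 ξ = Qop u.1 ξ := (Qop_dlt_one u.2.1).symm
    have comm : ∀ b ∈ M₀ Γ, ∀ z, b (Qop u.1 z) = Qop u.1 (b z) := fun b hb z => by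
      have := congrArg (fun S : Hl2 Γ →L[ℂ] Hl2 Γ => S z) (Qop_mem u.2.1 b hb)
      simpa only [ContinuousLinearMap.mul_apply] using this
    have e2 : c m = Qop u.1 (n m (star v.1 ξ)) := by
      show n m (star (u.1 * v.1) ξ) = _
      rw [star_mul, ContinuousLinearMap.mul_apply, e1,
        comm _ (star_mem_M₀ v.2.1), comm _ (hnM m)]
    have e3 : c u = Qop u.1 (n u (v.1 (star v.1 ξ))) := by
      show n u (star u.1 ξ) = _
      rw [e1, comm _ (hnM u), ← ContinuousLinearMap.mul_apply v.1,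
        Unitary.mul_star_self_of_mem v.2.2, ContinuousLinearMap.one_apply]
    have e4 : u.1 (Qop u.1 (c v)) = Qop u.1 (u.1 (n v (star v.1 ξ))) := comm _ u.2.1 _
    have e5 : T u (c v) - c m = Qop u.1 ((u.1 * n v + n u * v.1 - n m) (star v.1 ξ)) := by
      show u.1 (Qop u.1 (c v)) + c u - c m = _
      rw [e4, e3, e2]
      simp only [ContinuousLinearMap.sub_apply, ContinuousLinearMap.add_apply,
        ContinuousLinearMap.mul_apply, map_sub, map_add]
    rw [e5, Qop_unitary u.2.1 u.2.2]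
    refine (ContinuousLinearMap.le_opNorm _ _).trans ?_
    rw [unitary_apply_norm (Unitary.star_mem v.2.2), hξ, mul_one]
    have e6 : u.1 * n v + n u * v.1 - n m =
        ((h * (u.1 * v.1) - (u.1 * v.1) * h) - n m) - ((h * u.1 - u.1 * h) - n u) * v.1
          - u.1 * ((h * v.1 - v.1 * h) - n v) := by
      simp only [sub_mul, mul_sub, mul_assoc]
      abel
    rw [e6]
    refine (norm_sub_le _ _).trans ((add_le_add ((norm_sub_le _ _).trans
      (add_le_add (hn m) (norm_mul_le _ _))) (norm_mul_le _ _)).trans ?_)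
    rw [CStarRing.norm_of_mem_unitary u.2.2, CStarRing.norm_of_mem_unitary v.2.2]
    have := hn u; have := hn v
    linarith
  let S : Set ℝ := {ρ | ∃ z : Hl2 Γ, ∀ u : U, ‖c u - z‖ ≤ ρ}
  let one : U := ⟨1, one_mem_M₀, one_mem _⟩
  have hS0 : ∀ ρ ∈ S, 0 ≤ ρ := fun ρ ⟨z, hz⟩ => (norm_nonneg _).trans (hz one)
  have hSne : (2 * ‖h‖ + D) ∈ S := ⟨0, fun u => by simpa using hc u⟩
  set r := sInf S with hrdef
  have hr0 : 0 ≤ r := le_csInf ⟨_, hSne⟩ hS0
  have hr : r ≤ 2 * ‖h‖ + D := csInf_le ⟨0, hS0⟩ hSne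
  obtain ⟨ρ, ⟨a, ha⟩, hρ⟩ := exists_lt_of_csInf_lt ⟨_, hSne⟩ (lt_add_of_pos_right r hD)
  refine ⟨a, ?_⟩
  set A₁ := 10 * (√(‖h‖ * D) + D) with hA₁
  have key : ∀ u : U, ‖a - T u a‖ ≤ A₁ := by
    intro u
    set R := r + 4 * D
    have h1 : ∀ w : U, ‖c w - a‖ ≤ R := fun w => (ha w).trans (by linarith)
    have h2 : ∀ w : U, ‖c w - T u a‖ ≤ R := by
      intro w
      let v : U := ⟨star u.1 * w.1, mul_mem_M₀ (star_mem_M₀ u.2.1) w.2.1,
        mul_mem (Unitary.star_mem u.2.2) w.2.2⟩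
      have hv : mulU u v = w := Subtype.ext (by
        show u.1 * (star u.1 * w.1) = w.1
        rw [← mul_assoc, Unitary.mul_star_self_of_mem u.2.2, one_mul])
      have h3 := hT u v
      rw [hv] at h3
      have h4 : ‖T u (c v) - T u a‖ = ‖c v - a‖ := by
        have e : T u (c v) - T u a = u.1 (Qop u.1 (c v - a)) := by
          simp only [T, map_sub]; abel
        rw [e, unitary_apply_norm u.2.2, Qop_unitary u.2.1 u.2.2]
      calc ‖c w - T u a‖ = ‖(T u (c v) - T u a) - (T u (c v) - c w)‖ := by congr 1; abel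
        _ ≤ ‖T u (c v) - T u a‖ + ‖T u (c v) - c w‖ := norm_sub_le _ _
        _ ≤ (r + D) + 3 * D := add_le_add (by rw [h4]; exact (ha v).trans hρ.le) h3
        _ = R := by ring
    by_contra hcon
    rw [not_le] at hcon
    set d := ‖a - T u a‖
    let m : Hl2 Γ := (2⁻¹ : ℂ) • (a + T u a)
    have hm : ∀ w : U, ‖c w - m‖ ^ 2 ≤ R ^ 2 - d ^ 2 / 4 := by
      intro w
      have hp := parallelogram_law_with_norm ℂ (c w - a) (c w - T u a)
      have e1 : (c w - a) + (c w - T u a) = (2 : ℂ) • (c w - m) := by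
        simp only [m]; module
      have e2 : (c w - a) - (c w - T u a) = -(a - T u a) := by abel
      rw [e1, e2, norm_neg, norm_smul] at hp
      simp only [RCLike.norm_ofNat] at hp
      have a1 := h1 w
      have a2 := h2 w
      nlinarith [mul_self_le_mul_self (norm_nonneg _) a1, mul_self_le_mul_self (norm_nonneg _) a2]
    have hd : 4 * (8 * r * D + 16 * D ^ 2) < d ^ 2 := by
      have hs := Real.sq_sqrt (mul_nonneg (norm_nonneg h) hD.le)
      have hsn := Real.sqrt_nonneg (‖h‖ * D)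
      have h5 : A₁ ^ 2 < d ^ 2 := by
        have hA0 : 0 ≤ A₁ := by positivity
        nlinarith
      nlinarith [mul_le_mul_of_nonneg_right hr hD.le, mul_nonneg hsn hD.le]
    have hneg : R ^ 2 - d ^ 2 / 4 < r ^ 2 := by nlinarith
    have hρ' : √(R ^ 2 - d ^ 2 / 4) ∈ S := ⟨m, fun w => Real.le_sqrt_of_sq_le (hm w)⟩
    have h6 : r ≤ √(R ^ 2 - d ^ 2 / 4) := csInf_le ⟨0, hS0⟩ hρ'
    have h7 : 0 ≤ R ^ 2 - d ^ 2 / 4 := le_trans (sq_nonneg _) (hm one)
    have h8 := mul_self_le_mul_self hr0 h6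
    rw [Real.mul_self_sqrt h7] at h8
    nlinarith
  have ku : ∀ u : U, ‖(h (u.1 ξ) - u.1 (h ξ)) - (Qop (star u.1) a - u.1 a)‖ ≤ A₁ + D := by
    intro u
    have e1 : c u = Qop u.1 (n u ξ) := by
      show n u (star u.1 ξ) = _
      rw [← Qop_dlt_one u.2.1, ← ContinuousLinearMap.mul_apply, Qop_mem u.2.1 _ (hnM u)]
      rfl
    have e2 : n u ξ - (Qop (star u.1) a - u.1 a) = Qop (star u.1) (T u a - a) := by
      have hq : ∀ z, Qop (star u.1) (Qop u.1 z) = z := fun z => by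
        rw [← ContinuousLinearMap.mul_apply, Qop_star u.2.1 u.2.2]; rfl
      have hcom : u.1 (Qop u.1 a) = Qop u.1 (u.1 a) := by
        have := congrArg (fun S : Hl2 Γ →L[ℂ] Hl2 Γ => S a) (Qop_mem u.2.1 _ u.2.1)
        simpa only [ContinuousLinearMap.mul_apply] using this
      show _ = Qop (star u.1) (u.1 (Qop u.1 a) + c u - a)
      rw [hcom, e1, map_sub, map_add, hq, hq]
      abel
    have h1 : ‖(h (u.1 ξ) - u.1 (h ξ)) - n u ξ‖ ≤ D := by
      have := ((h * u.1 - u.1 * h) - n u).le_opNorm ξ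
      rw [hξ, mul_one] at this
      exact this.trans (hn u)
    have h2 : ‖n u ξ - (Qop (star u.1) a - u.1 a)‖ ≤ A₁ := by
      rw [e2, Qop_unitary (star_mem_M₀ u.2.1) (Unitary.star_mem u.2.2), norm_sub_rev]
      exact key u
    calc _ = ‖((h (u.1 ξ) - u.1 (h ξ)) - n u ξ) + (n u ξ - (Qop (star u.1) a - u.1 a))‖ := by
          congr 1; abel
      _ ≤ D + A₁ := (norm_add_le _ _).trans (add_le_add h1 h2)
      _ = _ := by ring
  intro x hx
  obtain ⟨u, cf, hsum, hcf, hu⟩ := exists_four_unitary hx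
  let φ : (Hl2 Γ →L[ℂ] Hl2 Γ) → Hl2 Γ := fun y =>
    (h (y ξ) - y (h ξ)) - (Qop (star y) a - y a)
  have hφ : φ x = ∑ i, cf i • φ (u i) := by
    simp only [φ, hsum, star_sum, star_smul, Fin.sum_univ_four, Qop_add, Qop_smul,
      RCLike.star_def, RingHomCompTriple.comp_apply, RingHom.id_apply,
      ContinuousLinearMap.add_apply, ContinuousLinearMap.smul_apply, map_add, map_smul,
      star_add]
    simp only [Complex.conj_conj, smul_sub]
    abel
  show ‖φ x‖ ≤ _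
  rw [hφ]
  refine (norm_sum_le _ _).trans ?_
  refine le_trans (Finset.sum_le_sum (g := fun _ => ‖x‖ / 2 * (A₁ + D)) fun i _ => ?_) ?_
  · rw [norm_smul]
    exact mul_le_mul (hcf i) (ku ⟨u i, hu i⟩) (norm_nonneg _) (by positivity)
  · simp only [Finset.sum_const, Finset.card_univ, Fintype.card_fin, nsmul_eq_mul, A₁]
    have := Real.sqrt_nonneg (‖h‖ * D)
    push_cast
    nlinarith [norm_nonneg x, mul_nonneg (norm_nonneg x) this]


end Vale.Agent.P096
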