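import Mathlib.Analysis.InnerProductSpace.l2Space
import Mathlib.Analysis.VonNeumannAlgebra.Basic
import Mathlib.Analysis.CStarAlgebra.ContinuousLinearMap

/-!
# Definitions used by the statement of the local stability theorem
-/

namespace Vale.Agent.P096

/-- A Powers group in the sense of de la Harpe: for every finite set `F` of nontrivial elements
and every `N` there are a partition `Γ = C ⊔ Cᶜ` with `f C ∩ C = ∅` for `f ∈ F` and elements
`γ₁, …, γ_N` such that the translates `γⱼ Cᶜ` are pairwise disjoint. -/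
def IsPowers (Γ : Type*) [Group Γ] : Prop :=
  ∀ F : Finset Γ, (1 : Γ) ∉ F → ∀ N : ℕ, ∃ (C : Set Γ) (γ : Fin N → Γ),
    (∀ f ∈ F, ∀ w ∈ C, f * w ∉ C) ∧
    ∀ i j : Fin N, i ≠ j → ∀ v w : Γ, v ∉ C → w ∉ C → γ i * v ≠ γ j * w

variable {H : Type} [NormedAddCommGroup H] [InnerProductSpace ℂ H] [CompleteSpace H]

/-- `M` is the commutant of the right translations `δ_(k,i) ↦ δ_(kg⁻¹,i)`, which is
`L(Γ) ⊗ B(ℓ²(ℕ))`. -/
def IsAmplifiedGroupAlgebra {Γ : Type} [Group Γ] (b : HilbertBasis (Γ × ℕ) ℂ H)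
    (M : VonNeumannAlgebra H) : Prop :=
  ∀ x : H →L[ℂ] H, x ∈ M ↔ ∀ (g : Γ) (R : H →L[ℂ] H),
    (∀ (k : Γ) (i : ℕ), R (b (k, i)) = b (k * g⁻¹, i)) → R * x = x * R

/-- The image `u M u⋆`. -/
def conjImage (u : H →L[ℂ] H) (M : VonNeumannAlgebra H) : Set (H →L[ℂ] H) :=
  (fun x => u * x * star u) '' (M : Set (H →L[ℂ] H))

/-- The unit ball of `u M u⋆` lies within `δ` of `M`. -/
def NearlyInside (u : H →L[ℂ] H) (M : VonNeumannAlgebra H) (δ : ℝ) : Prop :=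
  ∀ x ∈ M, ‖x‖ ≤ 1 → ∃ y ∈ M, ‖u * x * star u - y‖ ≤ δ

/-- Linear stability among conjugates by unitaries within `ε` of one. -/
def IsLocallyStable (M : VonNeumannAlgebra H) (ε C : ℝ) : Prop :=
  ∀ u ∈ unitary (H →L[ℂ] H), ‖u - 1‖ ≤ ε → ∀ δ : ℝ, 0 < δ → NearlyInside u M δ →
    ∃ v ∈ unitary (H →L[ℂ] H), ‖v - 1‖ ≤ C * δ ∧ conjImage v M = conjImage u M

end Vale.Agent.P096
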