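import Vale.Agent.P096.PingPong
import Mathlib.GroupTheory.FreeGroup.Reduce

/-!
# The free group on countably many generators is a Powers group
-/

namespace Vale.Agent.P096

open FreeGroup

/-- Reduced words that do not start with the letter `t` or its inverse. -/
def Avoids (t : ℕ) (w : FreeGroup ℕ) : Prop := ∀ x ∈ w.toWord.head?, x.1 ≠ t

lemma toWord_mul_of_isReduced {α : Type*} [DecidableEq α] (x y : FreeGroup α)
    (h : IsReduced (x.toWord ++ y.toWord)) : (x * y).toWord = x.toWord ++ y.toWord := by
  rw [toWord_mul, h.reduce_eq]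

lemma isReduced_append_of_ne {α : Type*} {L₁ L₂ : List (α × Bool)} (h₁ : IsReduced L₁)
    (h₂ : IsReduced L₂) (h : ∀ a ∈ L₁.getLast?, ∀ b ∈ L₂.head?, a.1 ≠ b.1) :
    IsReduced (L₁ ++ L₂) :=
  List.isChain_append.2 ⟨h₁, h₂, fun a ha b hb e => absurd e (h a ha b hb)⟩

lemma pow_word (t : ℕ) (m : ℕ) : ((FreeGroup.of t) ^ m).toWord = List.replicate m (t, true) := by
  rw [toWord_of_pow]

lemma zpow_mul_avoids {t : ℕ} {m : ℤ} (hm : m ≠ 0) {r : FreeGroup ℕ} (hr : Avoids t r) :
    ¬ Avoids t ((FreeGroup.of t) ^ m * r) := by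
  obtain ⟨n, hn | hn⟩ := Int.eq_nat_or_neg m
  · have hn0 : n ≠ 0 := by omega
    subst hn
    rw [zpow_natCast]
    intro h
    have h1 : ((FreeGroup.of t) ^ n * r).toWord = List.replicate n (t, true) ++ r.toWord := by
      rw [toWord_mul_of_isReduced, pow_word]
      rw [pow_word]
      refine isReduced_append_of_ne ?_ isReduced_toWord ?_
      · rw [← pow_word]; exact isReduced_toWord
      · intro a ha b hb
        have : a = (t, true) := by
          have := List.mem_of_mem_getLast? ha
          exact List.eq_of_mem_replicate this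
        rw [this]
        exact fun e => hr b hb e.symm
    obtain ⟨k, rfl⟩ := Nat.exists_eq_succ_of_ne_zero hn0
    exact h (t, true) (by rw [h1]; simp [List.replicate_succ]) rfl
  · have hn0 : n ≠ 0 := by omega
    subst hn
    rw [zpow_neg, zpow_natCast]
    intro h
    have hw : ((FreeGroup.of t) ^ n)⁻¹.toWord = List.replicate n (t, false) := by
      rw [toWord_inv, pow_word, invRev]
      simp [List.map_replicate, List.reverse_replicate]
    have h1 : (((FreeGroup.of t) ^ n)⁻¹ * r).toWord = List.replicate n (t, false) ++ r.toWord := by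
      rw [toWord_mul_of_isReduced, hw]
      rw [hw]
      refine isReduced_append_of_ne ?_ isReduced_toWord ?_
      · rw [← hw]; exact isReduced_toWord
      · intro a ha b hb
        have : a = (t, false) := by
          have := List.mem_of_mem_getLast? ha
          exact List.eq_of_mem_replicate this
        rw [this]
        exact fun e => hr b hb e.symm
    obtain ⟨k, rfl⟩ := Nat.exists_eq_succ_of_ne_zero hn0
    exact h (t, false) (by rw [h1]; simp [List.replicate_succ]) rfl

/-- The free group on countably many generators is a Powers group. -/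
theorem isPowers_freeGroup : IsPowers (FreeGroup ℕ) := by
  classical
  intro F hF N
  obtain ⟨t, ht⟩ := Infinite.exists_notMem_finset
    (F.biUnion fun g => (g.toWord.map Prod.fst).toFinset)
  refine ⟨{w | ¬ Avoids t w}, fun j => (FreeGroup.of t) ^ ((j : ℕ) : ℤ), ?_, ?_⟩
  · intro g hg w hw
    have hgt : ∀ a ∈ g.toWord, a.1 ≠ t := by
      intro a ha e
      exact ht (Finset.mem_biUnion.2 ⟨g, hg, List.mem_toFinset.2
        (List.mem_map.2 ⟨a, ha, e⟩)⟩)
    have hg1 : g.toWord ≠ [] := fun e => hF (by rwa [toWord_eq_nil_iff.1 e] at hg)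
    simp only [Set.mem_setOf_eq, not_not] at hw ⊢
    unfold Avoids at hw
    push Not at hw
    obtain ⟨b, hb, hbt⟩ := hw
    have h1 : (g * w).toWord = g.toWord ++ w.toWord := by
      refine toWord_mul_of_isReduced _ _ (isReduced_append_of_ne isReduced_toWord isReduced_toWord
        fun a ha c hc => ?_)
      rw [Option.mem_unique hc hb, hbt]
      exact hgt a (List.mem_of_mem_getLast? ha)
    intro x hx
    rw [h1, List.head?_append_of_ne_nil _ hg1] at hx
    exact hgt x (List.mem_of_mem_head? hx)
  · intro i j hij v w hv hw e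
    simp only [Set.mem_setOf_eq, not_not] at hv hw
    have e' : (FreeGroup.of t) ^ (((i : ℕ) : ℤ) - ((j : ℕ) : ℤ)) * v = w := by
      rw [sub_eq_neg_add, zpow_add, mul_assoc, e, ← mul_assoc, ← zpow_add, neg_add_cancel,
        zpow_zero, one_mul]
    have hne : ((i : ℕ) : ℤ) - ((j : ℕ) : ℤ) ≠ 0 := fun h => hij (Fin.ext (by omega))
    exact zpow_mul_avoids hne hv (e' ▸ hw)

end Vale.Agent.P096
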