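import Mathlib.Analysis.InnerProductSpace.l2Space
import Mathlib.Analysis.InnerProductSpace.Adjoint
import Mathlib.Analysis.CStarAlgebra.ContinuousLinearMap
import Mathlib.Algebra.Group.Center

/-!
# The regular representations on `ℓ²(Γ)` and the algebra commuting with right translations
-/

noncomputable section

namespace Vale.Agent.P096

open scoped InnerProductSpace ComplexConjugate ENNReal

/-- The Hilbert space `ℓ²(Γ)`. -/
abbrev Hl2 (Γ : Type*) := lp (fun _ : Γ => ℂ) 2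

variable {Γ : Type*}

/-- Transport of a square-summable family along a bijection of the index set. -/
def permL (e : Γ ≃ Γ) : Hl2 Γ →ₗ[ℂ] Hl2 Γ where
  toFun f := ⟨fun x => f (e.symm x), by
    have h := (lp.memℓp f).summable (p := 2) (by norm_num)
    exact memℓp_gen ((e.symm.summable_iff).2 h)⟩
  map_add' f g := by ext x; rfl
  map_smul' c f := by ext x; rfl

lemma norm_permL (e : Γ ≃ Γ) (f : Hl2 Γ) : ‖permL e f‖ = ‖f‖ := by
  have h2 : 0 < (2 : ℝ≥0∞).toReal := by norm_num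
  rw [lp.norm_eq_tsum_rpow h2, lp.norm_eq_tsum_rpow h2]
  congr 1
  exact (e.symm.tsum_eq (fun x => ‖f x‖ ^ (2 : ℝ≥0∞).toReal))

/-- Permutation operators on `ℓ²(Γ)`. -/
def pop (e : Γ ≃ Γ) : Hl2 Γ →L[ℂ] Hl2 Γ :=
  (permL e).mkContinuous 1 fun f => by rw [norm_permL, one_mul]

@[simp] lemma pop_apply (e : Γ ≃ Γ) (f : Hl2 Γ) (x : Γ) : pop e f x = f (e.symm x) := rfl

lemma norm_pop_apply (e : Γ ≃ Γ) (f : Hl2 Γ) : ‖pop e f‖ = ‖f‖ := norm_permL e f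

lemma norm_pop_le (e : Γ ≃ Γ) : ‖pop e‖ ≤ 1 :=
  ContinuousLinearMap.opNorm_le_bound _ zero_le_one fun f => by rw [norm_pop_apply, one_mul]

lemma pop_mul (e e' : Γ ≃ Γ) : pop e * pop e' = pop (e'.trans e) := by
  ext f x; rfl

lemma pop_refl : pop (Equiv.refl Γ) = 1 := by
  ext f x; rfl

lemma star_pop (e : Γ ≃ Γ) : star (pop e) = pop e.symm := by
  rw [ContinuousLinearMap.star_eq_adjoint]
  refine ((ContinuousLinearMap.eq_adjoint_iff _ _).2 fun x y => ?_).symm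
  rw [lp.inner_eq_tsum, lp.inner_eq_tsum, ← e.tsum_eq fun i => ⟪x i, pop e y i⟫_ℂ]
  simp

open Classical in
/-- The standard basis vector. -/
def dlt (g : Γ) : Hl2 Γ := lp.single 2 g (1 : ℂ)

open Classical in
lemma dlt_apply (g h : Γ) : dlt g h = if h = g then 1 else 0 := by
  simp [dlt, lp.single_apply, Pi.single_apply]

lemma inner_dlt_left (g : Γ) (f : Hl2 Γ) : ⟪dlt g, f⟫_ℂ = f g := by
  classical
  rw [dlt, lp.inner_single_left]; simp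

lemma inner_dlt_right (g : Γ) (f : Hl2 Γ) : ⟪f, dlt g⟫_ℂ = conj (f g) := by
  rw [← inner_conj_symm, inner_dlt_left]

lemma norm_dlt (g : Γ) : ‖dlt g‖ = 1 := by
  classical
  rw [dlt, lp.norm_single (by norm_num)]; simp

lemma pop_dlt (e : Γ ≃ Γ) (g : Γ) : pop e (dlt g) = dlt (e g) := by
  classical
  ext x
  simp only [pop_apply, dlt_apply, Equiv.symm_apply_eq]

lemma op_ext (S T : Hl2 Γ →L[ℂ] Hl2 Γ) (h : ∀ g k, S (dlt g) k = T (dlt g) k) : S = T := by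
  classical
  refine lp.ext_continuousLinearMap (by norm_num) fun g => ?_
  refine ContinuousLinearMap.ext_ring ?_
  simp only [ContinuousLinearMap.comp_apply, lp.singleContinuousLinearMap_apply]
  exact lp.ext (funext fun k => h g k)

section group

variable [Group Γ]

/-- Left translation. -/
def Lf (g : Γ) : Hl2 Γ →L[ℂ] Hl2 Γ := pop (Equiv.mulLeft g)

/-- Right translation. -/
def Rt (g : Γ) : Hl2 Γ →L[ℂ] Hl2 Γ := pop (Equiv.mulRight g⁻¹)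

/-- The group von Neumann algebra, as the commutant of the right translations. -/
def M₀ (Γ : Type*) [Group Γ] : Set (Hl2 Γ →L[ℂ] Hl2 Γ) := Set.centralizer (Set.range (Rt (Γ := Γ)))

/-- The commutant of the group von Neumann algebra. -/
def M₀' (Γ : Type*) [Group Γ] : Set (Hl2 Γ →L[ℂ] Hl2 Γ) := Set.centralizer (M₀ Γ)

lemma mem_M₀ {x : Hl2 Γ →L[ℂ] Hl2 Γ} : x ∈ M₀ Γ ↔ ∀ g, Rt g * x = x * Rt g := by
  simp [M₀, Set.mem_centralizer_iff]

lemma mem_M₀' {b : Hl2 Γ →L[ℂ] Hl2 Γ} : b ∈ M₀' Γ ↔ ∀ x ∈ M₀ Γ, x * b = b * x := Iff.rfl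

@[simp] lemma Lf_dlt (g h : Γ) : Lf g (dlt h) = dlt (g * h) := by simp [Lf, pop_dlt]

@[simp] lemma Rt_dlt (g h : Γ) : Rt g (dlt h) = dlt (h * g⁻¹) := by simp [Rt, pop_dlt]

@[simp] lemma Lf_apply (g : Γ) (f : Hl2 Γ) (x : Γ) : Lf g f x = f (g⁻¹ * x) := rfl

@[simp] lemma Rt_apply (g : Γ) (f : Hl2 Γ) (x : Γ) : Rt g f x = f (x * g) := by simp [Rt]

lemma Lf_mem (g : Γ) : Lf g ∈ M₀ Γ := by
  rw [mem_M₀]; intro h; ext f x
  simp [mul_assoc]

lemma Rt_mem (g : Γ) : Rt g ∈ M₀' Γ := fun _ hx => (mem_M₀.1 hx g).symm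

lemma star_Lf (g : Γ) : star (Lf g) = Lf g⁻¹ := by
  rw [Lf, star_pop]; ext f x; simp

lemma star_Rt (g : Γ) : star (Rt g) = Rt g⁻¹ := by
  rw [Rt, star_pop]; ext f x; simp

lemma Lf_mul (g h : Γ) : Lf g * Lf h = Lf (g * h) := by ext f x; simp [mul_assoc]

lemma Rt_mul (g h : Γ) : Rt g * Rt h = Rt (g * h) := by ext f x; simp [mul_assoc]

lemma Lf_one : Lf (1 : Γ) = 1 := by ext f x; simp

lemma Rt_one : Rt (1 : Γ) = 1 := by ext f x; simp

lemma Lf_Rt (g h : Γ) : Lf g * Rt h = Rt h * Lf g := by ext f x; simp [mul_assoc]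

lemma star_mem_M₀ {x : Hl2 Γ →L[ℂ] Hl2 Γ} (hx : x ∈ M₀ Γ) : star x ∈ M₀ Γ := by
  rw [mem_M₀] at *
  intro g
  have h := congrArg star (hx g⁻¹)
  rw [star_mul, star_mul, star_Rt, inv_inv] at h
  exact h.symm

lemma one_mem_M₀ : (1 : Hl2 Γ →L[ℂ] Hl2 Γ) ∈ M₀ Γ := Set.one_mem_centralizer

lemma mul_mem_M₀ {x y : Hl2 Γ →L[ℂ] Hl2 Γ} (hx : x ∈ M₀ Γ) (hy : y ∈ M₀ Γ) : x * y ∈ M₀ Γ :=
  Set.mul_mem_centralizer hx hy

lemma add_mem_M₀ {x y : Hl2 Γ →L[ℂ] Hl2 Γ} (hx : x ∈ M₀ Γ) (hy : y ∈ M₀ Γ) : x + y ∈ M₀ Γ :=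
  Set.add_mem_centralizer hx hy

lemma smul_mem_M₀ (c : ℂ) {x : Hl2 Γ →L[ℂ] Hl2 Γ} (hx : x ∈ M₀ Γ) : c • x ∈ M₀ Γ := by
  rw [mem_M₀] at *
  intro g
  rw [mul_smul_comm, smul_mul_assoc, hx g]

lemma sum_mem_M₀ {ι : Type*} (s : Finset ι) (f : ι → Hl2 Γ →L[ℂ] Hl2 Γ)
    (hf : ∀ i ∈ s, f i ∈ M₀ Γ) : ∑ i ∈ s, f i ∈ M₀ Γ :=
  Finset.sum_induction f (· ∈ M₀ Γ) (fun _ _ => add_mem_M₀) (Set.zero_mem_centralizer) hf

/-- An element of `M₀` is determined by its value on `dlt 1`. -/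
lemma M₀_apply_dlt {x : Hl2 Γ →L[ℂ] Hl2 Γ} (hx : x ∈ M₀ Γ) (j k : Γ) :
    x (dlt j) k = x (dlt 1) (k * j⁻¹) := by
  have h : dlt j = Rt j⁻¹ (dlt 1) := by simp
  rw [h, ← ContinuousLinearMap.mul_apply, ← mem_M₀.1 hx j⁻¹]
  simp

/-- The conjugation `f ↦ conj (f ·⁻¹)` as a conjugate-linear isometry. -/
def Jc : Hl2 Γ →L⋆[ℂ] Hl2 Γ :=
  LinearMap.mkContinuous
    { toFun := fun f => ⟨fun x => conj (f x⁻¹), by
        have h := (lp.memℓp f).summable (p := 2) (by norm_num)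
        refine memℓp_gen (((Equiv.inv Γ).summable_iff.2 h).congr fun x => ?_)
        simp⟩
      map_add' := fun f g => by
        ext x
        show conj ((f + g) x⁻¹) = conj (f x⁻¹) + conj (g x⁻¹)
        simp
      map_smul' := fun c f => by
        ext x
        show conj ((c • f) x⁻¹) = (conj c • (_ : Hl2 Γ)) x
        simp }
    1 fun f => by
      have h2 : 0 < (2 : ℝ≥0∞).toReal := by norm_num
      rw [one_mul, lp.norm_eq_tsum_rpow h2, lp.norm_eq_tsum_rpow h2]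
      refine le_of_eq (congrArg (· ^ (1 / (2 : ℝ≥0∞).toReal)) ?_)
      refine Eq.trans ?_ ((Equiv.inv Γ).tsum_eq fun x => ‖f x‖ ^ (2 : ℝ≥0∞).toReal)
      refine tsum_congr fun x => ?_
      simp

@[simp] lemma Jc_apply (f : Hl2 Γ) (x : Γ) : Jc f x = conj (f x⁻¹) := rfl

@[simp] lemma Jc_Jc (f : Hl2 Γ) : Jc (Jc f) = f := by ext x; simp

lemma norm_Jc_le (f : Hl2 Γ) : ‖Jc f‖ ≤ ‖f‖ := by
  simpa using LinearMap.mkContinuous_norm_le _ zero_le_one _ |> fun h =>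
    (Jc.le_opNorm f).trans (mul_le_mul_of_nonneg_right h (norm_nonneg f))

@[simp] lemma Jc_dlt (g : Γ) : Jc (dlt g) = dlt g⁻¹ := by
  classical
  ext x
  simp only [Jc_apply, dlt_apply, inv_eq_iff_eq_inv]
  split <;> simp

/-- The right action attached to an operator. -/
def Qop (x : Hl2 Γ →L[ℂ] Hl2 Γ) : Hl2 Γ →L[ℂ] Hl2 Γ := Jc.comp (x.comp Jc)

@[simp] lemma Qop_apply (x : Hl2 Γ →L[ℂ] Hl2 Γ) (f : Hl2 Γ) : Qop x f = Jc (x (Jc f)) := rfl

lemma Qop_add (x y : Hl2 Γ →L[ℂ] Hl2 Γ) : Qop (x + y) = Qop x + Qop y := by ext f; simp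

lemma Qop_smul (c : ℂ) (x : Hl2 Γ →L[ℂ] Hl2 Γ) : Qop (c • x) = conj c • Qop x := by ext f; simp

lemma Qop_mul (x y : Hl2 Γ →L[ℂ] Hl2 Γ) : Qop (x * y) = Qop x * Qop y := by ext f; simp

lemma Qop_one : Qop (1 : Hl2 Γ →L[ℂ] Hl2 Γ) = 1 := by ext f; simp

lemma norm_Qop_le (x : Hl2 Γ →L[ℂ] Hl2 Γ) : ‖Qop x‖ ≤ ‖x‖ := by
  refine ContinuousLinearMap.opNorm_le_bound _ (norm_nonneg x) fun f => ?_
  refine (norm_Jc_le _).trans ((x.le_opNorm _).trans ?_)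
  exact mul_le_mul_of_nonneg_left (norm_Jc_le f) (norm_nonneg x)

/-- On `dlt 1`, the right action of `x` is the left action of `star x`. -/
lemma Qop_dlt_one {x : Hl2 Γ →L[ℂ] Hl2 Γ} (hx : x ∈ M₀ Γ) :
    Qop x (dlt 1) = star x (dlt 1) := by
  ext k
  rw [Qop_apply, Jc_dlt, inv_one, Jc_apply]
  conv_rhs => rw [← inner_dlt_left, ContinuousLinearMap.star_eq_adjoint,
    ContinuousLinearMap.adjoint_inner_right, inner_dlt_right, M₀_apply_dlt hx k 1, one_mul]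

/-- The right action commutes with the left action. -/
lemma Qop_mem {y : Hl2 Γ →L[ℂ] Hl2 Γ} (hy : y ∈ M₀ Γ) : Qop y ∈ M₀' Γ := by
  rw [mem_M₀']
  intro x hx
  refine op_ext _ _ fun g k => ?_
  simp only [ContinuousLinearMap.mul_apply]
  rw [← inner_dlt_left k (x _), ← ContinuousLinearMap.adjoint_inner_left, lp.inner_eq_tsum]
  simp only [Qop_apply, Jc_apply, Jc_dlt]
  rw [← inner_dlt_left k⁻¹ (y _), ← ContinuousLinearMap.adjoint_inner_left, lp.inner_eq_tsum,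
    Complex.conj_tsum]
  rw [← Equiv.tsum_eq ((Equiv.mulLeft g⁻¹).trans (Equiv.mulRight k⁻¹))
    (fun j => conj ⟪_, _⟫_ℂ)]
  refine tsum_congr fun j => ?_
  simp only [RCLike.inner_apply', Equiv.trans_apply, Equiv.coe_mulLeft, Equiv.coe_mulRight,
    Jc_apply, RingHomCompTriple.comp_apply, map_mul]
  have e1 : ∀ i, ((ContinuousLinearMap.adjoint x) (dlt k)) i = conj (x (dlt 1) (k * i⁻¹)) := by
    intro i
    rw [← inner_dlt_left i, ContinuousLinearMap.adjoint_inner_right, inner_dlt_right,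
      M₀_apply_dlt hx]
  have e2 : ∀ i, ((ContinuousLinearMap.adjoint y) (dlt k⁻¹)) i =
      conj (y (dlt 1) (k⁻¹ * i⁻¹)) := by
    intro i
    rw [← inner_dlt_left i, ContinuousLinearMap.adjoint_inner_right, inner_dlt_right,
      M₀_apply_dlt hy]
  rw [e1, e2, M₀_apply_dlt hx g, M₀_apply_dlt hy g⁻¹ j⁻¹]
  simp only [RingHomCompTriple.comp_apply, RingHom.id_apply, mul_inv_rev, inv_inv, mul_assoc,
    inv_mul_cancel_left, mul_inv_cancel_left, mul_inv_cancel, mul_one]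
  ring

lemma Qop_Lf (g : Γ) : Qop (Lf g) = Rt g := by
  refine op_ext _ _ fun h k => ?_
  simp

lemma Qop_star {y : Hl2 Γ →L[ℂ] Hl2 Γ} (hy : y ∈ M₀ Γ) (hu : y ∈ unitary (Hl2 Γ →L[ℂ] Hl2 Γ)) :
    Qop (star y) * Qop y = 1 := by
  rw [← Qop_mul, Unitary.star_mul_self_of_mem hu, Qop_one]

end group

end Vale.Agent.P096
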