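import Vale.Agent.P096.PingPong

/-!
# The linear theorem on `ℓ²(Γ)`
-/

noncomputable section

namespace Vale.Agent.P096

open scoped InnerProductSpace ComplexConjugate Topology
open Filter

variable {Γ : Type*} [Group Γ]

lemma add_mem_M₀' {a b : Hl2 Γ →L[ℂ] Hl2 Γ} (ha : a ∈ M₀' Γ) (hb : b ∈ M₀' Γ) : a + b ∈ M₀' Γ :=
  Set.add_mem_centralizer ha hb

lemma mul_mem_M₀' {a b : Hl2 Γ →L[ℂ] Hl2 Γ} (ha : a ∈ M₀' Γ) (hb : b ∈ M₀' Γ) : a * b ∈ M₀' Γ :=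
  Set.mul_mem_centralizer ha hb

lemma smul_mem_M₀' (c : ℂ) {a : Hl2 Γ →L[ℂ] Hl2 Γ} (ha : a ∈ M₀' Γ) : c • a ∈ M₀' Γ := by
  rw [mem_M₀'] at *
  intro x hx
  rw [mul_smul_comm, smul_mul_assoc, ha x hx]

lemma sum_mem_M₀' {ι : Type*} (s : Finset ι) (f : ι → Hl2 Γ →L[ℂ] Hl2 Γ)
    (hf : ∀ i ∈ s, f i ∈ M₀' Γ) : ∑ i ∈ s, f i ∈ M₀' Γ :=
  Finset.sum_induction f (· ∈ M₀' Γ) (fun _ _ => add_mem_M₀') Set.zero_mem_centralizer hf

/-- Conjugation by a group element as an operator. -/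
def Vc (s : Γ) : Hl2 Γ →L[ℂ] Hl2 Γ := Lf s * Rt s

lemma Vc_dlt (s j : Γ) : Vc s (dlt j) = dlt (s * j * s⁻¹) := by
  simp [Vc, mul_assoc]

lemma star_Vc (s : Γ) : star (Vc s) = Rt s⁻¹ * Lf s⁻¹ := by
  rw [Vc, star_mul, star_Lf, star_Rt]

lemma norm_Vc_apply_le (s : Γ) (v : Hl2 Γ) : ‖Vc s v‖ ≤ ‖v‖ := by
  rw [Vc, ContinuousLinearMap.mul_apply, Lf, norm_pop_apply, Rt, norm_pop_apply]

lemma norm_Vc_le (s : Γ) : ‖Vc s‖ ≤ 1 :=
  ContinuousLinearMap.opNorm_le_bound _ zero_le_one fun v => by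
    rw [one_mul]; exact norm_Vc_apply_le s v

/-- One conjugate of `h` differs from `h` by an element of `M₀ + M₀'`, up to `3 D`. -/
lemma conj_diff (h : Hl2 Γ →L[ℂ] Hl2 Γ) (D : ℝ)
    (hM : ∀ x ∈ M₀ Γ, ∃ a ∈ M₀ Γ, ‖(h * x - x * h) - a‖ ≤ D * ‖x‖)
    (hR : ∀ g : Γ, ∃ b ∈ M₀' Γ, ‖(h * Rt g - Rt g * h) - b‖ ≤ 2 * D) (hD : 0 ≤ D) (s : Γ) :
    ∃ a ∈ M₀ Γ, ∃ b ∈ M₀' Γ, ‖a‖ ≤ 2 * ‖h‖ + D ∧ ‖b‖ ≤ 2 * ‖h‖ + 2 * D ∧
      ‖(star (Vc s) * h * Vc s - h) - a - b‖ ≤ 3 * D := by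
  obtain ⟨n, hn, hn'⟩ := hM (Lf s) (Lf_mem s)
  obtain ⟨m, hm, hm'⟩ := hR s
  have hn1 : ‖(h * Lf s - Lf s * h) - n‖ ≤ D :=
    hn'.trans (mul_le_of_le_one_right hD (norm_pop_le _))
  have one : ∀ g : Γ, ‖Lf g‖ ≤ 1 ∧ ‖Rt g‖ ≤ 1 := fun g => ⟨norm_pop_le _, norm_pop_le _⟩
  have bnd : ∀ (x : Hl2 Γ →L[ℂ] Hl2 Γ) (c : Hl2 Γ →L[ℂ] Hl2 Γ) (E : ℝ), ‖x‖ ≤ 1 →
      ‖(h * x - x * h) - c‖ ≤ E → ‖c‖ ≤ 2 * ‖h‖ + E := by
    intro x c E hx hE
    have e : c = (h * x - x * h) - ((h * x - x * h) - c) := by abel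
    rw [e]
    refine (norm_sub_le _ _).trans (add_le_add ((norm_sub_le _ _).trans ?_) hE)
    have h1 := norm_mul_le h x
    have h2 := norm_mul_le x h
    nlinarith [norm_nonneg h]
  refine ⟨Lf s⁻¹ * n, mul_mem_M₀ (Lf_mem _) hn, Rt s⁻¹ * m, mul_mem_M₀' (Rt_mem _) hm,
    ?_, ?_, ?_⟩
  · refine (norm_mul_le _ _).trans ?_
    exact (mul_le_of_le_one_left (norm_nonneg _) (one _).1).trans (bnd _ _ _ (one s).1 hn1)
  · refine (norm_mul_le _ _).trans ?_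
    exact (mul_le_of_le_one_left (norm_nonneg _) (one _).2).trans (bnd _ _ _ (one s).2 hm')
  · have hc : Rt s⁻¹ * (Lf s⁻¹ * n) * Rt s = Lf s⁻¹ * n := by
      rw [mem_M₀.1 (mul_mem_M₀ (Lf_mem _) hn) s⁻¹, mul_assoc, Rt_mul, inv_mul_cancel, Rt_one,
        mul_one]
    have hl : Lf s⁻¹ * Lf s = 1 := by rw [Lf_mul, inv_mul_cancel, Lf_one]
    have hr : Rt s⁻¹ * Rt s = 1 := by rw [Rt_mul, inv_mul_cancel, Rt_one]
    have e : (star (Vc s) * h * Vc s - h) - Lf s⁻¹ * n - Rt s⁻¹ * m =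
        Rt s⁻¹ * (Lf s⁻¹ * ((h * Lf s - Lf s * h) - n)) * Rt s
          + Rt s⁻¹ * ((h * Rt s - Rt s * h) - m) := by
      conv_lhs => rw [← hc, star_Vc, Vc]
      simp only [mul_sub, sub_mul, mul_assoc]
      rw [← mul_assoc (Lf s⁻¹) (Lf s), hl, one_mul]
      conv_rhs => rw [← mul_assoc (Rt s⁻¹) (Rt s) h, hr, one_mul]
      abel
    rw [e]
    have h3 : ‖Rt s⁻¹ * (Lf s⁻¹ * ((h * Lf s - Lf s * h) - n)) * Rt s‖ ≤ D := by
      refine (norm_mul_le _ _).trans ((mul_le_of_le_one_right (norm_nonneg _) (one s).2).trans ?_)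
      refine (norm_mul_le _ _).trans ((mul_le_of_le_one_left (norm_nonneg _) (one _).2).trans ?_)
      exact (norm_mul_le _ _).trans ((mul_le_of_le_one_left (norm_nonneg _) (one _).1).trans hn1)
    have h4 : ‖Rt s⁻¹ * ((h * Rt s - Rt s * h) - m)‖ ≤ 2 * D :=
      (norm_mul_le _ _).trans ((mul_le_of_le_one_left (norm_nonneg _) (one _).2).trans hm')
    exact (norm_add_le _ _).trans ((add_le_add h3 h4).trans (le_of_eq (by ring)))

/-- Sums of a vector over a conjugation orbit. -/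
lemma orbit_sum {N : ℕ} (s : Fin N → Γ) (q : Γ)
    (hq : q ≠ 1 → Function.Injective fun k => s k * q * (s k)⁻¹) (w : Hl2 Γ) [Decidable (q = 1)] :
    ‖(∑ k, w (s k * q * (s k)⁻¹)) - (if q = 1 then (N : ℂ) * w 1 else 0)‖ ≤ √N * ‖w‖ := by
  classical
  by_cases h1 : q = 1
  · subst h1
    rw [if_pos rfl]
    simp only [mul_one, mul_inv_cancel, Finset.sum_const, Finset.card_univ, Fintype.card_fin,
      nsmul_eq_mul, sub_self, norm_zero]
    positivity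
  · rw [if_neg h1, sub_zero]
    refine (norm_sum_le _ _).trans ?_
    have h2 := sq_sum_le_card_mul_sum_sq (s := Finset.univ)
      (f := fun k => ‖w (s k * q * (s k)⁻¹)‖)
    simp only [Finset.card_univ, Fintype.card_fin] at h2
    refine le_of_pow_le_pow_left₀ two_ne_zero (by positivity) (h2.trans ?_)
    rw [mul_pow, Real.sq_sqrt (Nat.cast_nonneg N)]
    gcongr
    rw [← Finset.sum_image (f := fun x => ‖w x‖ ^ 2) fun a _ b _ h => hq h1 h]
    have := lp.sum_rpow_le_norm_rpow (p := 2) (by norm_num) w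
      (Finset.univ.image fun k => s k * q * (s k)⁻¹)
    simpa using this

lemma norm_sum_dlt_sq (S : Finset Γ) (c : Γ → ℂ) :
    ‖∑ g ∈ S, c g • dlt g‖ ^ 2 = ∑ g ∈ S, ‖c g‖ ^ 2 := by
  rw [norm_sum_sq_of_orth]
  · exact Finset.sum_congr rfl fun g _ => by rw [norm_smul, norm_dlt, mul_one]
  · intro i _ j _ hij
    classical
    rw [inner_smul_left, inner_smul_right, inner_dlt_left, dlt_apply, if_neg hij]
    simp

/-- The estimate at one ping-pong stage. -/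
lemma stage_bound (h : Hl2 Γ →L[ℂ] Hl2 Γ) (a : Hl2 Γ) (A : ℝ) (hA : 0 ≤ A)
    (hφ : ∀ x ∈ M₀ Γ,
      ‖(h (x (dlt 1)) - x (h (dlt 1))) - (Qop (star x) a - x a)‖ ≤ A * ‖x‖)
    {N : ℕ} (s : Fin N → Γ) (P : Fin N → Set Γ)
    (hP : ∀ i j, i ≠ j → ∀ x, x ∈ P i → x ∉ P j) (S T : Finset Γ) (hS : (1 : Γ) ∉ S)
    (hin : ∀ k, ∀ g ∈ S, ∀ w, w ∉ P k → s k * g * (s k)⁻¹ * w ∈ P k)
    (hin' : ∀ k, ∀ g ∈ S, ∀ w, w ∉ P k → s k * g⁻¹ * (s k)⁻¹ * w ∈ P k)
    (hq : ∀ k, ∀ g ∈ S, ∀ h' ∈ S, g ≠ h' → ∀ w, w ∉ P k →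
      s k * (g⁻¹ * h') * (s k)⁻¹ * w ∈ P k)
    (hq' : ∀ k, ∀ g ∈ S, ∀ h' ∈ S, g ≠ h' → ∀ w, w ∉ P k →
      s k * (g * h'⁻¹) * (s k)⁻¹ * w ∈ P k)
    (hinj : ∀ g, g = 1 ∨ g ∈ S → ∀ j ∈ T,
      (g⁻¹ * j ≠ 1 → Function.Injective fun k => s k * (g⁻¹ * j) * (s k)⁻¹) ∧
      (j * g⁻¹ ≠ 1 → Function.Injective fun k => s k * (j * g⁻¹) * (s k)⁻¹))
    (y₁ : ℂ) (c zc : Γ → ℂ) :
    ‖(∑ k, ⟪Vc (s k) (∑ j ∈ T, zc j • dlt j),
          h (Vc (s k) (y₁ • dlt 1 + ∑ g ∈ S, c g • dlt g))⟫_ℂ)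
        - N * ((h (dlt 1) : Hl2 Γ) 1 *
            ⟪∑ j ∈ T, zc j • dlt j, y₁ • dlt 1 + ∑ g ∈ S, c g • dlt g⟫_ℂ)‖
      ≤ A * (2 * √N * ‖∑ g ∈ S, c g • dlt g‖ + ∑ g ∈ S, ‖c g‖)
            * (√N * ‖∑ j ∈ T, zc j • dlt j‖)
        + √N * ((∑ j ∈ T, ‖zc j‖) * ((‖y₁‖ + ∑ g ∈ S, ‖c g‖) *
            (‖h (dlt 1)‖ + 2 * ‖a‖))) := by
  classical
  set η := h (dlt 1) with hη
  set z := ∑ j ∈ T, zc j • dlt j with hz
  let Ak := fun k => conjComb (s k) S c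
  let φ := fun x : Hl2 Γ →L[ℂ] Hl2 Γ =>
    (h (x (dlt 1)) - x (h (dlt 1))) - (Qop (star x) a - x a)
  have e0 : ∀ k, Vc (s k) (∑ g ∈ S, c g • dlt g) = Ak k (dlt 1) := by
    intro k
    simp [Ak, conjComb, map_sum, Vc_dlt]
  have eV1 : ∀ k, Vc (s k) (dlt 1) = dlt 1 := fun k => by simp [Vc_dlt]
  have eVz : ∀ k (v : Hl2 Γ), ⟪Vc (s k) z, v⟫_ℂ = ∑ j ∈ T, conj (zc j) * v (s k * j * (s k)⁻¹) := by
    intro k v
    simp [hz, map_sum, sum_inner, inner_smul_left, Vc_dlt, inner_dlt_left]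
  have eA : ∀ k (w : Hl2 Γ) (j : Γ), (Ak k w) (s k * j * (s k)⁻¹) =
      ∑ g ∈ S, c g * w (s k * (g⁻¹ * j) * (s k)⁻¹) := by
    intro k w j
    simp only [Ak, conjComb, sum_apply, smul_apply, lp.coeFn_sum, Finset.sum_apply,
      lp.coeFn_smul, Pi.smul_apply, Lf_apply, smul_eq_mul]
    refine Finset.sum_congr rfl fun g _ => ?_
    congr 2; group
  have eQ : ∀ k (w : Hl2 Γ) (j : Γ), (Qop (star (Ak k)) w) (s k * j * (s k)⁻¹) =
      ∑ g ∈ S, c g * w (s k * (j * g⁻¹) * (s k)⁻¹) := by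
    intro k w j
    have : Qop (star (Ak k)) = ∑ g ∈ S, c g • Rt (s k * g * (s k)⁻¹)⁻¹ := by
      simp only [Ak, conjComb, star_sum, star_smul, star_Lf]
      have hsum : ∀ f : Γ → Hl2 Γ →L[ℂ] Hl2 Γ, Qop (∑ g ∈ S, f g) = ∑ g ∈ S, Qop (f g) :=
        fun f => map_sum (AddMonoidHom.mk' Qop Qop_add) f S
      rw [hsum]
      refine Finset.sum_congr rfl fun g _ => ?_
      rw [Qop_smul, Qop_Lf, RCLike.star_def, Complex.conj_conj]
    rw [this]
    simp only [sum_apply, smul_apply, lp.coeFn_sum, Finset.sum_apply,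
      lp.coeFn_smul, Pi.smul_apply, Rt_apply, smul_eq_mul]
    refine Finset.sum_congr rfl fun g _ => ?_
    congr 2; group
  have split : ∀ k, ⟪Vc (s k) z, h (Vc (s k) (y₁ • dlt 1 + ∑ g ∈ S, c g • dlt g))⟫_ℂ =
      ⟪Vc (s k) z, φ (Ak k)⟫_ℂ
        + ∑ j ∈ T, conj (zc j) * (y₁ * η (s k * (1⁻¹ * j) * (s k)⁻¹)
          + ∑ g ∈ S, c g * (η (s k * (g⁻¹ * j) * (s k)⁻¹)
            + a (s k * (j * g⁻¹) * (s k)⁻¹) - a (s k * (g⁻¹ * j) * (s k)⁻¹))) := by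
    intro k
    have e : h (Vc (s k) (y₁ • dlt 1 + ∑ g ∈ S, c g • dlt g)) =
        φ (Ak k) + (y₁ • η + Ak k η + (Qop (star (Ak k)) a - Ak k a)) := by
      rw [map_add, map_smul, eV1, e0, map_add, map_smul]
      simp only [φ, hη]
      abel
    rw [e, inner_add_right, eVz k (y₁ • η + Ak k η + (Qop (star (Ak k)) a - Ak k a))]
    congr 1
    refine Finset.sum_congr rfl fun j _ => ?_
    simp only [lp.coeFn_add, lp.coeFn_sub, lp.coeFn_smul, Pi.add_apply, Pi.sub_apply,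
      Pi.smul_apply, smul_eq_mul, eA, eQ, inv_one, one_mul, mul_add, mul_sub,
      Finset.sum_add_distrib, Finset.sum_sub_distrib]
    ring
  -- the main pairing term
  have main : ‖∑ k, ⟪Vc (s k) z, φ (Ak k)⟫_ℂ‖ ≤
      A * (2 * √N * ‖∑ g ∈ S, c g • dlt g‖ + ∑ g ∈ S, ‖c g‖) * (√N * ‖z‖) := by
    have hlin : ∀ e : Fin N → ℂ, φ (∑ k, e k • Ak k) = ∑ k, e k • φ (Ak k) := by
      intro e
      have hadd : ∀ x y, φ (x + y) = φ x + φ y := fun x y => by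
        simp only [φ, star_add, Qop_add, add_apply, map_add]; abel
      have hsm : ∀ (r : ℂ) x, φ (r • x) = r • φ x := fun r x => by
        simp only [φ, star_smul, Qop_smul, RCLike.star_def, Complex.conj_conj, smul_apply,
          map_smul, smul_sub]
      rw [show φ (∑ k, e k • Ak k) = ∑ k, φ (e k • Ak k) from
        map_sum (AddMonoidHom.mk' φ hadd) _ _]
      exact Finset.sum_congr rfl fun k _ => hsm _ _
    refine pairing_bound Ak (fun k => Vc (s k) z) φ A _ ‖z‖ hA (by positivity) (norm_nonneg _)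
      hlin (fun e => hφ _ (sum_mem_M₀ _ _ fun k _ => smul_mem_M₀ _ (conjComb_mem _ _ _)))
      (fun e he => ?_) (fun k => norm_Vc_apply_le _ _)
    have h1 := norm_signed_sum_le s P S hP hin hin' hq hq' c e he
    rwa [← norm_sum_dlt_sq, Real.sqrt_sq (norm_nonneg _)] at h1
  -- the orbit terms
  set K := ‖η‖ + 2 * ‖a‖
  have rest : ∀ j ∈ T, ‖(∑ k, (y₁ * η (s k * (1⁻¹ * j) * (s k)⁻¹)
          + ∑ g ∈ S, c g * (η (s k * (g⁻¹ * j) * (s k)⁻¹)
            + a (s k * (j * g⁻¹) * (s k)⁻¹) - a (s k * (g⁻¹ * j) * (s k)⁻¹))))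
        - N * (η 1 * (y₁ • dlt 1 + ∑ g ∈ S, c g • dlt g : Hl2 Γ) j)‖
      ≤ √N * ((‖y₁‖ + ∑ g ∈ S, ‖c g‖) * K) := by
    intro j hj
    have ev : (y₁ • dlt 1 + ∑ g ∈ S, c g • dlt g : Hl2 Γ) j =
        y₁ * (if (1 : Γ)⁻¹ * j = 1 then 1 else 0)
          + ∑ g ∈ S, c g * (if g⁻¹ * j = 1 then 1 else 0) := by
      simp only [lp.coeFn_add, lp.coeFn_smul, Pi.add_apply, Pi.smul_apply, lp.coeFn_sum,
        Finset.sum_apply, dlt_apply, smul_eq_mul, inv_mul_eq_one, eq_comm (a := j)]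
    rw [ev, Finset.sum_add_distrib, Finset.sum_comm]
    simp only [← Finset.mul_sum, Finset.sum_add_distrib, Finset.sum_sub_distrib]
    have e2 : y₁ * (∑ k, η (s k * (1⁻¹ * j) * (s k)⁻¹))
        + (∑ g ∈ S, c g * ((∑ k, η (s k * (g⁻¹ * j) * (s k)⁻¹))
            + (∑ k, a (s k * (j * g⁻¹) * (s k)⁻¹)) - ∑ k, a (s k * (g⁻¹ * j) * (s k)⁻¹)))
        - N * (η 1 * (y₁ * (if (1 : Γ)⁻¹ * j = 1 then 1 else 0)
          + ∑ g ∈ S, c g * (if g⁻¹ * j = 1 then 1 else 0)))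
      = y₁ * ((∑ k, η (s k * (1⁻¹ * j) * (s k)⁻¹))
            - (if (1 : Γ)⁻¹ * j = 1 then (N : ℂ) * η 1 else 0))
        + ∑ g ∈ S, c g * (((∑ k, η (s k * (g⁻¹ * j) * (s k)⁻¹))
            - (if g⁻¹ * j = 1 then (N : ℂ) * η 1 else 0))
          + ((∑ k, a (s k * (j * g⁻¹) * (s k)⁻¹))
            - (if j * g⁻¹ = 1 then (N : ℂ) * a 1 else 0))
          - ((∑ k, a (s k * (g⁻¹ * j) * (s k)⁻¹))
            - (if g⁻¹ * j = 1 then (N : ℂ) * a 1 else 0))) := by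
      have hiff : ∀ g : Γ, (j * g⁻¹ = 1) = (g⁻¹ * j = 1) := fun g => by
        rw [mul_inv_eq_one, inv_mul_eq_one, eq_comm (a := j)]
      simp only [hiff, mul_add, mul_sub, Finset.mul_sum, Finset.sum_add_distrib,
        Finset.sum_sub_distrib]
      have i1 : ∀ (p : Prop) [Decidable p] (u v : ℂ),
          (N : ℂ) * (η 1 * (u * if p then 1 else 0)) = u * (if p then (N : ℂ) * η 1 else 0)
            + 0 * v := fun p _ u v => by split <;> ring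
      rw [i1 _ y₁ 0, Finset.sum_congr rfl fun g _ => i1 (g⁻¹ * j = 1) (c g) 0]
      simp only [zero_mul, add_zero]
      ring
    rw [e2]
    have hs := fun g hg => hinj g hg j hj
    have hN : 0 ≤ √(N : ℝ) := Real.sqrt_nonneg _
    refine (norm_add_le _ _).trans ?_
    rw [add_mul, mul_add]
    refine add_le_add ?_ ?_
    · rw [norm_mul, mul_left_comm]
      refine mul_le_mul_of_nonneg_left ?_ (norm_nonneg _)
      refine (orbit_sum s _ (hs 1 (Or.inl rfl)).1 η).trans ?_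
      exact mul_le_mul_of_nonneg_left (le_add_of_nonneg_right (by positivity)) hN
    · refine (norm_sum_le _ _).trans ?_
      rw [Finset.sum_mul, Finset.mul_sum]
      refine Finset.sum_le_sum fun g hg => ?_
      rw [norm_mul, mul_left_comm]
      refine mul_le_mul_of_nonneg_left ?_ (norm_nonneg _)
      obtain ⟨i1, i2⟩ := hs g (Or.inr hg)
      refine (norm_sub_le _ _).trans ((add_le_add (norm_add_le _ _) le_rfl).trans ?_)
      refine (add_le_add (add_le_add (orbit_sum s _ i1 η) (orbit_sum s _ i2 a))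
        (orbit_sum s _ i1 a)).trans (le_of_eq ?_)
      simp only [K]; ring
  simp only [split]
  rw [Finset.sum_add_distrib, add_sub_assoc]
  refine (norm_add_le _ _).trans (add_le_add main ?_)
  rw [Finset.sum_comm]
  simp only [← Finset.mul_sum]
  have ez : ∀ v : Hl2 Γ, ⟪z, v⟫_ℂ = ∑ j ∈ T, conj (zc j) * v j := by
    intro v
    simp [hz, sum_inner, inner_smul_left, inner_dlt_left]
  rw [ez, Finset.mul_sum, Finset.mul_sum, ← Finset.sum_sub_distrib]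
  refine (norm_sum_le _ _).trans ?_
  rw [Finset.sum_mul, Finset.mul_sum]
  refine Finset.sum_le_sum fun j hj => ?_
  have e3 : ∀ x : ℂ, conj (zc j) * x - (N : ℂ) * (η 1 * (conj (zc j) *
      (y₁ • dlt 1 + ∑ g ∈ S, c g • dlt g : Hl2 Γ) j)) =
      conj (zc j) * (x - N * (η 1 * (y₁ • dlt 1 + ∑ g ∈ S, c g • dlt g : Hl2 Γ) j)) :=
    fun x => by ring
  rw [e3, norm_mul, RCLike.norm_conj]
  exact (mul_le_mul_of_nonneg_left (rest j hj) (norm_nonneg (zc j))).trans (le_of_eq (by ring))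

omit [Group Γ] in
lemma tendsto_sum_dlt (v : Hl2 Γ) :
    Tendsto (fun S : Finset Γ => ∑ g ∈ S, v g • dlt g) atTop (𝓝 v) := by
  classical
  have h := lp.hasSum_single (p := 2) (by norm_num) v
  refine h.congr fun S => Finset.sum_congr rfl fun g _ => ?_
  rw [dlt, ← lp.single_smul, smul_eq_mul, mul_one]

/-- The linear theorem on `ℓ²(Γ)`. -/
theorem linear_group (hΓ : IsPowers Γ) (h : Hl2 Γ →L[ℂ] Hl2 Γ) (D : ℝ) (hD : 0 < D)
    (hM : ∀ x ∈ M₀ Γ, ∃ a ∈ M₀ Γ, ‖(h * x - x * h) - a‖ ≤ D * ‖x‖)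
    (hR : ∀ g : Γ, ∃ b ∈ M₀' Γ, ‖(h * Rt g - Rt g * h) - b‖ ≤ 2 * D) :
    ∃ a ∈ M₀ Γ, ∃ b ∈ M₀' Γ, ‖a‖ ≤ 3 * ‖h‖ + D ∧ ‖b‖ ≤ 2 * ‖h‖ + 2 * D ∧
      ‖h - a - b‖ ≤ 44 * (√(‖h‖ * D) + D) + 3 * D := by
  classical
  obtain ⟨a₀, ha₀⟩ := center h D hD hM
  set A := 22 * (√(‖h‖ * D) + D) with hAdef
  have hA : 0 ≤ A := by positivity
  -- ping-pong data for every stage
  let G2 : Finset Γ → Finset Γ := fun F =>
    ((insert 1 F ×ˢ insert 1 F).image (fun p => p.1⁻¹ * p.2) ∪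
      (insert 1 F ×ˢ insert 1 F).image (fun p => p.1 * p.2⁻¹)).erase 1
  have hG2 : ∀ F, (1 : Γ) ∉ G2 F := fun F => Finset.notMem_erase _ _
  choose s P hP hpp using fun i : Finset Γ × ℕ => hΓ.pingPong (G2 i.1) (hG2 i.1) (i.2 + 3)
  have mem₁ : ∀ F g h', g ∈ insert (1:Γ) F → h' ∈ insert (1:Γ) F → g⁻¹ * h' ≠ 1 →
      g⁻¹ * h' ∈ G2 F := fun F g h' hg hh hne => Finset.mem_erase.2 ⟨hne, Finset.mem_union_left _
        (Finset.mem_image.2 ⟨(g, h'), Finset.mem_product.2 ⟨hg, hh⟩, rfl⟩)⟩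
  have mem₂ : ∀ F g h', g ∈ insert (1:Γ) F → h' ∈ insert (1:Γ) F → g * h'⁻¹ ≠ 1 →
      g * h'⁻¹ ∈ G2 F := fun F g h' hg hh hne => Finset.mem_erase.2 ⟨hne, Finset.mem_union_right _
        (Finset.mem_image.2 ⟨(g, h'), Finset.mem_product.2 ⟨hg, hh⟩, rfl⟩)⟩
  have hinjG : ∀ i, ∀ q ∈ G2 i.1, Function.Injective fun k => s i k * q * (s i k)⁻¹ := by
    intro i q hq k l hkl
    by_contra hne
    obtain ⟨m, hmk, hml⟩ : ∃ m : Fin (i.2 + 3), m ≠ k ∧ m ≠ l := by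
      by_contra hcon
      simp only [not_exists, not_and, not_not] at hcon
      have hsub : (Finset.univ : Finset (Fin (i.2 + 3))) ⊆ {k, l} := by
        intro m _
        rw [Finset.mem_insert, Finset.mem_singleton]
        by_cases h1 : m = k
        · exact Or.inl h1
        · exact Or.inr (hcon m h1)
      have := Finset.card_le_card hsub
      simp only [Finset.card_univ, Fintype.card_fin] at this
      have := Finset.card_le_two (a := k) (b := l)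
      omega
    obtain ⟨w, hw⟩ : ∃ w, w ∈ P i m := by
      by_contra hcon
      simp only [not_exists] at hcon
      exact hcon _ (hpp i m q hq 1 (hcon 1))
    have wk : w ∉ P i k := hP i m k hmk w hw
    have wl : w ∉ P i l := hP i m l hml w hw
    have h1 := hpp i k q hq w wk
    have h2 := hpp i l q hq w wl
    rw [show s i k * q * (s i k)⁻¹ = s i l * q * (s i l)⁻¹ from hkl] at h1
    exact hP i k l hne _ h1 h2
  -- averaged operators
  choose av hav bv hbv hna hnb hne using fun t => conj_diff h D hM hR hD.le t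
  let wgt : Finset Γ × ℕ → ℂ := fun i => ((i.2 : ℂ) + 3)⁻¹
  have hw : ∀ i : Finset Γ × ℕ, ‖wgt i‖ * ((i.2 : ℝ) + 3) = 1 := fun i => by
    have e : ‖((i.2 : ℂ) + 3)‖ = (i.2 : ℝ) + 3 := by
      rw [show ((i.2 : ℂ) + 3) = (((i.2 : ℝ) + 3 : ℝ) : ℂ) by push_cast; rfl, Complex.norm_real,
        Real.norm_of_nonneg (by positivity)]
    rw [norm_inv, e]
    exact inv_mul_cancel₀ (by positivity)
  have avg_le : ∀ (f : ∀ i : Finset Γ × ℕ, Fin (i.2 + 3) → Hl2 Γ →L[ℂ] Hl2 Γ) (C : ℝ),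
      (∀ i k, ‖f i k‖ ≤ C) → ∀ i, ‖wgt i • ∑ k, f i k‖ ≤ C := by
    intro f C hf i
    rw [norm_smul]
    refine (mul_le_mul_of_nonneg_left ((norm_sum_le _ _).trans
      (Finset.sum_le_sum fun k _ => hf i k)) (norm_nonneg _)).trans (le_of_eq ?_)
    simp only [Finset.sum_const, Finset.card_univ, Fintype.card_fin, nsmul_eq_mul]
    push_cast
    rw [← mul_assoc, hw i, one_mul]
  let hh := fun i => wgt i • ∑ k, star (Vc (s i k)) * h * Vc (s i k)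
  let aa := fun i => wgt i • ∑ k, av (s i k)
  let bb := fun i => wgt i • ∑ k, bv (s i k)
  have hhn : ∀ i, ‖hh i‖ ≤ ‖h‖ := avg_le _ _ fun i k => by
    refine (norm_mul_le _ _).trans ((mul_le_of_le_one_right (norm_nonneg _) (norm_Vc_le _)).trans ?_)
    refine (norm_mul_le _ _).trans (mul_le_of_le_one_left (norm_nonneg _) ?_)
    rw [ContinuousLinearMap.star_eq_adjoint, LinearIsometryEquiv.norm_map]; exact norm_Vc_le _
  have haa : ∀ i, ‖aa i‖ ≤ 2 * ‖h‖ + D := avg_le _ _ fun i k => hna _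
  have hbb : ∀ i, ‖bb i‖ ≤ 2 * ‖h‖ + 2 * D := avg_le _ _ fun i k => hnb _
  have hee : ∀ i, ‖(hh i - h) - aa i - bb i‖ ≤ 3 * D := by
    intro i
    have e : (hh i - h) - aa i - bb i = wgt i • ∑ k, ((star (Vc (s i k)) * h * Vc (s i k) - h)
        - av (s i k) - bv (s i k)) := by
      simp only [hh, aa, bb, Finset.sum_sub_distrib, smul_sub, Finset.sum_const,
        Finset.card_univ, Fintype.card_fin]
      rw [← Nat.cast_smul_eq_nsmul ℂ, smul_smul]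
      have : wgt i * ((i.2 + 3 : ℕ) : ℂ) = 1 := by
        push_cast
        exact inv_mul_cancel₀ (by exact_mod_cast Nat.succ_ne_zero (i.2 + 2))
      rw [this, one_smul]
    rw [e]
    exact avg_le (fun i k => _) _ (fun i k => hne _) i
  let U : Ultrafilter (Finset Γ × ℕ) := Ultrafilter.of atTop
  have hU : (U : Filter (Finset Γ × ℕ)) ≤ atTop := Ultrafilter.of_le _
  have ev : ∀ (f : Finset Γ × ℕ → Hl2 Γ →L[ℂ] Hl2 Γ) (C : ℝ), (∀ i, ‖f i‖ ≤ C) → ∀ x y : Hl2 Γ,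
      ∀ᶠ i in (U : Filter (Finset Γ × ℕ)), ‖⟪x, f i y⟫_ℂ‖ ≤ C * ‖x‖ * ‖y‖ :=
    fun f C hf x y => Eventually.of_forall fun i => (inner_op_le _ x y).trans
      (by gcongr; exact hf i)
  obtain ⟨h', -, hh'⟩ := exists_weak_lim U hh ‖h‖ (norm_nonneg _) (ev _ _ hhn)
  obtain ⟨a', hna', haa'⟩ := exists_weak_lim U aa (2 * ‖h‖ + D) (by positivity) (ev _ _ haa)
  obtain ⟨b', hnb', hbb'⟩ := exists_weak_lim U bb (2 * ‖h‖ + 2 * D) (by positivity) (ev _ _ hbb)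
  have ha'M : a' ∈ M₀ Γ := by
    rw [mem_M₀]
    intro g
    exact weak_lim_commute haa' (Eventually.of_forall fun i =>
      mem_M₀.1 (smul_mem_M₀ _ (sum_mem_M₀ _ _ fun k _ => hav _)) g)
  have hb'M : b' ∈ M₀' Γ := by
    intro x hx
    exact weak_lim_commute hbb' (Eventually.of_forall fun i =>
      smul_mem_M₀' _ (sum_mem_M₀' _ _ fun k _ => hbv _) x hx)
  have herr : ‖(h' - h) - a' - b'‖ ≤ 3 * D := by
    refine norm_le_of_inner_le _ _ (by positivity) fun x y => ?_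
    have t : Tendsto (fun i => ⟪x, ((hh i - h) - aa i - bb i) y⟫_ℂ) U
        (𝓝 ⟪x, ((h' - h) - a' - b') y⟫_ℂ) := by
      simp only [sub_apply, inner_sub_right]
      exact (((hh' x y).sub tendsto_const_nhds).sub (haa' x y)).sub (hbb' x y)
    exact le_of_tendsto t.norm (Eventually.of_forall fun i =>
      (inner_op_le _ x y).trans (by gcongr; exact hee i))
  set η1 : ℂ := (h (dlt 1) : Hl2 Γ) 1
  have hη1 : ‖η1‖ ≤ ‖h‖ := by
    refine (lp.norm_apply_le_norm (by norm_num) _ _).trans ?_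
    simpa [norm_dlt] using h.le_opNorm (dlt 1)
  have main : ‖h' - η1 • 1‖ ≤ 2 * A := by
    refine norm_le_of_inner_le _ _ (by positivity) fun x y => ?_
    have tx := tendsto_sum_dlt x
    have ty := tendsto_sum_dlt y
    refine le_of_tendsto_of_tendsto ((tx.inner ((ContinuousLinearMap.continuous _).tendsto _
      |>.comp ty)).norm) ((tx.norm.const_mul (2 * A)).mul ty.norm)
      (Eventually.of_forall fun S => ?_)
    show ‖⟪∑ g ∈ S, x g • dlt g, (h' - η1 • 1) (∑ g ∈ S, y g • dlt g)⟫_ℂ‖ ≤ _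
    set xS := ∑ g ∈ S, x g • dlt g with hxS
    set yS := ∑ g ∈ S, y g • dlt g with hyS
    -- decompose `yS`
    let y₁ : ℂ := if (1 : Γ) ∈ S then y 1 else 0
    have hy' : yS = y₁ • dlt 1 + ∑ g ∈ S.erase 1, y g • dlt g := by
      by_cases h1 : (1 : Γ) ∈ S
      · simp only [y₁, if_pos h1, hyS]
        exact (Finset.add_sum_erase _ _ h1).symm
      · simp only [y₁, if_neg h1, zero_smul, zero_add, hyS, Finset.erase_eq_of_notMem h1]
    have hy'n : ‖∑ g ∈ S.erase 1, y g • dlt g‖ ≤ ‖yS‖ := by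
      refine le_of_pow_le_pow_left₀ two_ne_zero (norm_nonneg _) ?_
      rw [hyS, norm_sum_dlt_sq, norm_sum_dlt_sq]
      exact Finset.sum_le_sum_of_subset_of_nonneg (Finset.erase_subset _ _)
        fun g _ _ => sq_nonneg _
    set B := ∑ g ∈ S.erase 1, ‖y g‖
    set C := A * B * ‖xS‖ + (∑ j ∈ S, ‖x j‖) * ((‖y₁‖ + B) * (‖h (dlt 1)‖ + 2 * ‖a₀‖))
    have bnd : ∀ i : Finset Γ × ℕ, S ⊆ i.1 →
        ‖⟪xS, (hh i - η1 • 1) yS⟫_ℂ‖ ≤ 2 * A * ‖xS‖ * ‖yS‖ + C * (√((i.2 : ℝ) + 3))⁻¹ := by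
      intro i hSi
      set F := i.1
      have hsub : ∀ {g}, g ∈ S.erase 1 → g ∈ insert (1 : Γ) F := fun hg =>
        Finset.mem_insert_of_mem (hSi (Finset.mem_of_mem_erase hg))
      have h1F : (1 : Γ) ∈ insert (1 : Γ) F := Finset.mem_insert_self _ _
      have st := stage_bound h a₀ A hA ha₀ (s i) (P i) (hP i) (S.erase 1) S
        (Finset.notMem_erase _ _)
        (fun k g hg w hwk => by
          have hne := Finset.ne_of_mem_erase hg
          have := mem₁ F 1 g h1F (hsub hg) (by simpa using hne)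
          rw [inv_one, one_mul] at this
          exact hpp i k g this w hwk)
        (fun k g hg w hwk => by
          have hne := Finset.ne_of_mem_erase hg
          have := mem₂ F 1 g h1F (hsub hg) (by simpa using hne)
          rw [one_mul] at this
          exact hpp i k _ this w hwk)
        (fun k g hg h₂ hh₂ hne w hwk =>
          hpp i k _ (mem₁ F g h₂ (hsub hg) (hsub hh₂) (by rwa [ne_eq, inv_mul_eq_one])) w hwk)
        (fun k g hg h₂ hh₂ hne w hwk =>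
          hpp i k _ (mem₂ F g h₂ (hsub hg) (hsub hh₂) (by rwa [ne_eq, mul_inv_eq_one])) w hwk)
        (fun g hg j hj => by
          have hg' : g ∈ insert (1 : Γ) F := by
            rcases hg with rfl | hg
            · exact h1F
            · exact hsub hg
          have hj' : j ∈ insert (1 : Γ) F := Finset.mem_insert_of_mem (hSi hj)
          exact ⟨fun hne => hinjG i _ (mem₁ F g j hg' hj' hne),
            fun hne => hinjG i _ (mem₂ F j g hj' hg' hne)⟩)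
        y₁ y x
      rw [← hy'] at st
      have e : ⟪xS, (hh i - η1 • 1) yS⟫_ℂ = wgt i * ((∑ k, ⟪Vc (s i k) xS, h (Vc (s i k) yS)⟫_ℂ)
          - ((i.2 + 3 : ℕ) : ℂ) * (η1 * ⟪xS, yS⟫_ℂ)) := by
        have : wgt i * ((i.2 + 3 : ℕ) : ℂ) = 1 := by
          push_cast
          exact inv_mul_cancel₀ (by exact_mod_cast Nat.succ_ne_zero (i.2 + 2))
        rw [mul_sub, ← mul_assoc, this, one_mul, Finset.mul_sum]
        simp only [hh, sub_apply, smul_apply, sum_apply, inner_sub_right, inner_smul_right,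
          inner_sum, Finset.smul_sum, ContinuousLinearMap.mul_apply, one_apply_eq_self,
          ContinuousLinearMap.star_eq_adjoint, ContinuousLinearMap.adjoint_inner_right]
      rw [e, norm_mul]
      refine (mul_le_mul_of_nonneg_left st (norm_nonneg _)).trans ?_
      have hN := hw i
      set r := √((i.2 : ℝ) + 3)
      have hr2 : r * r = (i.2 : ℝ) + 3 := Real.mul_self_sqrt (by positivity)
      have hr : 0 < r := Real.sqrt_pos.2 (by positivity)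
      push_cast
      have hwr : ‖wgt i‖ = (r * r)⁻¹ := by
        rw [hr2]; exact eq_inv_of_mul_eq_one_left hN
      rw [hwr]
      calc (r * r)⁻¹ * (A * (2 * r * ‖∑ g ∈ S.erase 1, y g • dlt g‖ + B) * (r * ‖xS‖)
            + r * ((∑ j ∈ S, ‖x j‖) * ((‖y₁‖ + B) * (‖h (dlt 1)‖ + 2 * ‖a₀‖))))
          = 2 * A * ‖xS‖ * ‖∑ g ∈ S.erase 1, y g • dlt g‖ + C * r⁻¹ := by
            simp only [C]; field_simp; ring
        _ ≤ _ := by gcongr
    have lim : Tendsto (fun i : Finset Γ × ℕ => 2 * A * ‖xS‖ * ‖yS‖ + C * (√((i.2 : ℝ) + 3))⁻¹) U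
        (𝓝 (2 * A * ‖xS‖ * ‖yS‖)) := by
      have h1 : Tendsto (fun n : ℕ => (√((n : ℝ) + 3))⁻¹) atTop (𝓝 0) :=
        tendsto_inv_atTop_zero.comp (Real.tendsto_sqrt_atTop.comp
          (tendsto_atTop_add_const_right _ _ tendsto_natCast_atTop_atTop))
      have h2 : Tendsto (fun i : Finset Γ × ℕ => (√((i.2 : ℝ) + 3))⁻¹) U (𝓝 0) :=
        h1.comp (tendsto_atTop_atTop_of_monotone (fun i j hij => (Prod.le_def.1 hij).2)
          (fun n => ⟨(∅, n), le_rfl⟩) |>.mono_left hU)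
      simpa using tendsto_const_nhds.add (h2.const_mul C)
    have tl : Tendsto (fun i => ⟪xS, (hh i - η1 • 1) yS⟫_ℂ) U (𝓝 ⟪xS, (h' - η1 • 1) yS⟫_ℂ) := by
      simp only [sub_apply, inner_sub_right]
      exact (hh' xS yS).sub tendsto_const_nhds
    refine le_of_tendsto_of_tendsto tl.norm lim ?_
    have hev : ∀ᶠ i in (U : Filter (Finset Γ × ℕ)), S ⊆ i.1 :=
      hU ((eventually_ge_atTop (S, 0)).mono fun i hi => hi.1)
    exact hev.mono fun i hi => bnd i hi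
  refine ⟨η1 • 1 - a', ?_, -b', ?_, ?_, ?_, ?_⟩
  · rw [mem_M₀]
    intro g
    rw [mul_sub, sub_mul, mul_smul_comm, smul_mul_assoc, one_mul, mul_one, mem_M₀.1 ha'M g]
  · intro x hx
    rw [mul_neg, neg_mul, hb'M x hx]
  · refine (norm_sub_le _ _).trans ?_
    have h1 : ‖η1 • (1 : Hl2 Γ →L[ℂ] Hl2 Γ)‖ ≤ ‖h‖ := by
      rw [norm_smul, norm_one, mul_one]; exact hη1
    linarith
  · rw [norm_neg]; exact hnb'
  · have e : h - (η1 • 1 - a') - -b' = (h' - η1 • 1) - ((h' - h) - a' - b') := by abel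
    rw [e]
    refine (norm_sub_le _ _).trans (add_le_add (main.trans (le_of_eq ?_)) herr)
    rw [hAdef]; ring

end Vale.Agent.P096
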