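import Vale.Agent.P096.AmpLinear
import Vale.Agent.P096.Cayley
import Vale.Agent.P096.Free

/-!
# Linear strong stability of `L(Γ) ⊗ B(ℓ²)` under unitary perturbations near the identity
-/

noncomputable section

namespace Vale.Agent.P096

open scoped InnerProductSpace ComplexConjugate

/-- Bookkeeping for one improvement step in a normed ring. -/
lemma step_norm {A : Type*} [NormedRing A] [NormOneClass A] (k h a b P Q : A) (m α β E : ℝ)
    (hk : ‖k‖ ≤ m) (hkh : ‖k - h‖ ≤ m ^ 2 / 2) (hE : ‖h - a - b‖ ≤ E)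
    (ha : ‖a‖ ≤ α) (hb : ‖b‖ ≤ β) (hP : ‖P - (1 - a)‖ ≤ α ^ 2) (hQ : ‖Q - (1 - b)‖ ≤ β ^ 2)
    (hm : m ≤ 1) (hα : α ≤ 1) (hβ : β ≤ 1) :
    ‖(1 + k) * P * Q - 1‖ ≤ E + m ^ 2 / 2 + α ^ 2 + β ^ 2 + 2 * m * α + 2 * m * β + 8 * α * β := by
  set p := P - 1
  set q := Q - 1
  have hm0 : 0 ≤ m := (norm_nonneg k).trans hk
  have hα0 : 0 ≤ α := (norm_nonneg a).trans ha
  have hβ0 : 0 ≤ β := (norm_nonneg b).trans hb
  have hp : ‖p‖ ≤ 2 * α := by
    have e : p = (P - (1 - a)) - a := by simp only [p]; abel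
    rw [e]
    refine (norm_sub_le _ _).trans ?_
    nlinarith
  have hq : ‖q‖ ≤ 2 * β := by
    have e : q = (Q - (1 - b)) - b := by simp only [q]; abel
    rw [e]
    refine (norm_sub_le _ _).trans ?_
    nlinarith
  have e : (1 + k) * P * Q - 1 = (h - a - b) + (k - h) + (P - (1 - a)) + (Q - (1 - b))
      + k * p + k * q + p * q + k * p * q := by
    simp only [p, q]
    noncomm_ring
  rw [e]
  have b1 : ‖k * p‖ ≤ 2 * m * α := (norm_mul_le _ _).trans (by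
    calc ‖k‖ * ‖p‖ ≤ m * (2 * α) := mul_le_mul hk hp (norm_nonneg _) hm0
      _ = _ := by ring)
  have b2 : ‖k * q‖ ≤ 2 * m * β := (norm_mul_le _ _).trans (by
    calc ‖k‖ * ‖q‖ ≤ m * (2 * β) := mul_le_mul hk hq (norm_nonneg _) hm0
      _ = _ := by ring)
  have b3 : ‖p * q‖ ≤ 4 * α * β := (norm_mul_le _ _).trans (by
    calc ‖p‖ * ‖q‖ ≤ (2 * α) * (2 * β) := mul_le_mul hp hq (norm_nonneg _) (by positivity)
      _ = _ := by ring)
  have b4 : ‖k * p * q‖ ≤ 4 * α * β := by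
    rw [mul_assoc]
    exact (norm_mul_le _ _).trans
      ((mul_le_of_le_one_left (norm_nonneg _) (hk.trans hm)).trans b3)
  refine (norm_add_le _ _).trans ((add_le_add ((norm_add_le _ _).trans (add_le_add
    ((norm_add_le _ _).trans (add_le_add ((norm_add_le _ _).trans (add_le_add
      ((norm_add_le _ _).trans (add_le_add ((norm_add_le _ _).trans (add_le_add
        ((norm_add_le _ _).trans (add_le_add hE hkh)) hP)) hQ)) b1)) b2)) b3)) b4).trans ?_)
  linarith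

/-- The first-order consequence of the perturbation hypothesis. -/
lemma first_order {A : Type*} [NormedRing A] [StarRing A] [CStarRing A] [NormedAlgebra ℂ A]
    [StarModule ℂ A] [Nontrivial A] (u x z : A) (hu : u ∈ unitary A) (m δ : ℝ)
    (hm : ‖u - 1‖ ≤ m) (hm1 : m ≤ 1) (hδ : 0 ≤ δ) (hx : ‖x‖ ≤ 1)
    (hz : ‖u * x * star u - z‖ ≤ δ) :
    ‖(((2⁻¹ : ℂ) • (u - star u)) * x - x * ((2⁻¹ : ℂ) • (u - star u))) - (z - x)‖
      ≤ 2 * δ + 3 * m ^ 2 := by
  set h := (2⁻¹ : ℂ) • (u - star u)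
  set k := u - 1
  have hm0 : 0 ≤ m := (norm_nonneg _).trans hm
  have hu1 : ‖u‖ = 1 := CStarRing.norm_of_mem_unitary hu
  have hkh : ‖h - k‖ ≤ m ^ 2 / 2 := by
    have e : h - k = (2⁻¹ : ℂ) • (star k * k) := by
      have h1 := Unitary.star_mul_self_of_mem hu
      simp only [h, k, star_sub, star_one, sub_mul, mul_sub, h1, one_mul, mul_one]
      module
    rw [e, norm_smul, norm_inv, Complex.norm_two, CStarRing.norm_star_mul_self]
    nlinarith [norm_nonneg k]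
  have hw : ‖u * x * star u - x‖ ≤ 2 * m := by
    have e : u * x * star u - x = (k * x - x * k) * star u := by
      simp only [k, sub_mul, mul_sub, one_mul, mul_one, mul_assoc,
        Unitary.mul_star_self_of_mem hu]
      abel
    rw [e]
    refine (norm_mul_le _ _).trans ?_
    rw [norm_star, hu1, mul_one]
    refine (norm_sub_le _ _).trans ?_
    have h1 := norm_mul_le k x
    have h2 := norm_mul_le x k
    nlinarith [norm_nonneg k, norm_nonneg x]
  have hzx : ‖z - x‖ ≤ 2 * m + δ := by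
    have e : z - x = (u * x * star u - x) - (u * x * star u - z) := by abel
    rw [e]
    exact (norm_sub_le _ _).trans (add_le_add hw hz)
  have e : (h * x - x * h) - (z - x) =
      ((h - k) * x - x * (h - k)) + ((u * x * star u - z) * u + (z - x) * k) := by
    simp only [k, sub_mul, mul_sub, one_mul, mul_one, mul_assoc,
      Unitary.star_mul_self_of_mem hu]
    abel
  rw [e]
  have b1 : ‖(h - k) * x - x * (h - k)‖ ≤ m ^ 2 := by
    refine (norm_sub_le _ _).trans ?_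
    have h1 := norm_mul_le (h - k) x
    have h2 := norm_mul_le x (h - k)
    nlinarith [norm_nonneg (h - k), norm_nonneg x]
  have b2 : ‖(u * x * star u - z) * u‖ ≤ δ :=
    (norm_mul_le _ _).trans (by rw [hu1, mul_one]; exact hz)
  have b3 : ‖(z - x) * k‖ ≤ (2 * m + δ) * m :=
    (norm_mul_le _ _).trans (mul_le_mul hzx hm (norm_nonneg _) (by positivity))
  refine (norm_add_le _ _).trans ((add_le_add b1 ((norm_add_le _ _).trans
    (add_le_add b2 b3))).trans ?_)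
  nlinarith

/-- A unitary minus one against its skew part. -/
lemma norm_sub_skew {A : Type*} [NormedRing A] [StarRing A] [CStarRing A] [NormedAlgebra ℂ A]
    [StarModule ℂ A] (u : A) (hu : u ∈ unitary A) (m : ℝ) (hm : ‖u - 1‖ ≤ m) :
    ‖(u - 1) - (2⁻¹ : ℂ) • (u - star u)‖ ≤ m ^ 2 / 2 := by
  have e : (2⁻¹ : ℂ) • (u - star u) - (u - 1) = (2⁻¹ : ℂ) • (star (u - 1) * (u - 1)) := by
    have h1 := Unitary.star_mul_self_of_mem hu
    simp only [star_sub, star_one, sub_mul, mul_sub, h1, one_mul, mul_one]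
    module
  rw [norm_sub_rev, e, norm_smul, norm_inv, Complex.norm_two, CStarRing.norm_star_mul_self]
  nlinarith [norm_nonneg (u - 1)]

/-- The numerical bound of one step. -/
lemma numeric (m δ n : ℝ) (hm0 : 0 ≤ m) (hδ : 0 ≤ δ) (hn0 : 0 ≤ n) (hn : n ≤ m)
    (hm' : m ≤ 1 / 5000000) (hδ' : δ ≤ 1 / 5000000) :
    88 * √(n * (2 * δ + 3 * m ^ 2)) + 189 * (2 * δ + 3 * m ^ 2) + m ^ 2 / 2 + (16 * (m + δ)) ^ 2
      + (16 * (m + δ)) ^ 2 + 2 * m * (16 * (m + δ)) + 2 * m * (16 * (m + δ))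
      + 8 * (16 * (m + δ)) * (16 * (m + δ)) ≤ m / 5 + 45001 * δ := by
  set D := 2 * δ + 3 * m ^ 2
  have hD : 0 ≤ D := by positivity
  have hsq : √(n * D) ≤ m / 1000 + 250 * D := by
    rw [Real.sqrt_le_left (by positivity)]
    nlinarith [mul_le_mul_of_nonneg_right hn hD, sq_nonneg (m / 1000 - 250 * D)]
  have h1 : m * m ≤ m * (1 / 5000000) := mul_le_mul_of_nonneg_left hm' hm0
  have h2 : m * δ ≤ (1 / 5000000) * δ := mul_le_mul_of_nonneg_right hm' hδ
  have h3 : δ * δ ≤ (1 / 5000000) * δ := mul_le_mul_of_nonneg_right hδ' hδ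
  nlinarith

variable {Γ : Type*} [Group Γ]

instance : Nontrivial (Hamp Γ) := by
  refine nontrivial_of_ne (inc 0 (dlt 1)) 0 fun h => ?_
  have := norm_inc_apply 0 (dlt (1 : Γ))
  rw [h, norm_zero, norm_dlt] at this
  exact zero_ne_one this

lemma skew_mem {S : Set (Hamp Γ →L[ℂ] Hamp Γ)} (hS : ∀ R ∈ S, star R ∈ S)
    {a : Hamp Γ →L[ℂ] Hamp Γ} (ha : a ∈ Set.centralizer S) :
    (2⁻¹ : ℂ) • (a - star a) ∈ Set.centralizer S := by
  intro R hR
  have h1 : Commute R a := ha R hR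
  have h2 : Commute R (star a) := by
    have h := Commute.star_star (ha (star R) (hS R hR) : Commute (star R) a)
    rwa [star_star] at h
  exact (h1.sub_right h2).smul_right _

lemma norm_skew_le {A : Type*} [NormedRing A] [StarRing A] [CStarRing A] [NormedAlgebra ℂ A]
    (a : A) : ‖(2⁻¹ : ℂ) • (a - star a)‖ ≤ ‖a‖ := by
  rw [norm_smul, norm_inv, Complex.norm_two]
  have := norm_sub_le a (star a)
  rw [norm_star] at this
  linarith

lemma skew_sub_le {A : Type*} [NormedRing A] [StarRing A] [CStarRing A] [NormedAlgebra ℂ A]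
    [StarModule ℂ A] (h a b : A) (hh : star h = -h) :
    ‖h - (2⁻¹ : ℂ) • (a - star a) - (2⁻¹ : ℂ) • (b - star b)‖ ≤ ‖h - a - b‖ := by
  have e : h - (2⁻¹ : ℂ) • (a - star a) - (2⁻¹ : ℂ) • (b - star b) =
      (2⁻¹ : ℂ) • ((h - a - b) - star (h - a - b)) := by
    rw [star_sub, star_sub, hh]
    module
  rw [e]
  exact norm_skew_le _

lemma star_skew {A : Type*} [NormedRing A] [StarRing A] [NormedAlgebra ℂ A] [StarModule ℂ A]
    (a : A) : star ((2⁻¹ : ℂ) • (a - star a)) = -((2⁻¹ : ℂ) • (a - star a)) := by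
  rw [star_smul, star_sub, star_star, ← smul_neg, neg_sub]
  simp

/-- Unitaries of the algebra and of its commutant do not move the image. -/
lemma image_eq (u P Q : Hamp Γ →L[ℂ] Hamp Γ) (hPM : P ∈ Mamp Γ)
    (hPu : P ∈ unitary (Hamp Γ →L[ℂ] Hamp Γ)) (hQu : Q ∈ unitary (Hamp Γ →L[ℂ] Hamp Γ))
    (hQc : ∀ x ∈ Mamp Γ, Commute x Q) :
    (fun x => u * P * Q * x * star (u * P * Q)) '' Mamp Γ =
      (fun x => u * x * star u) '' Mamp Γ := by
  have hmul : ∀ x, u * P * Q * x * star (u * P * Q) =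
      u * (P * (Q * x * star Q) * star P) * star u := by
    intro x; simp only [star_mul, mul_assoc]
  have hQx : ∀ x ∈ Mamp Γ, Q * x * star Q = x := by
    intro x hx
    rw [← (hQc x hx).eq, mul_assoc, Unitary.mul_star_self_of_mem hQu, mul_one]
  have hPsM : star P ∈ Mamp Γ := star_mem_Mamp hPM
  apply Set.Subset.antisymm
  · rintro _ ⟨x, hx, rfl⟩
    refine ⟨P * x * star P,
      Set.mul_mem_centralizer (Set.mul_mem_centralizer hPM hx) hPsM, ?_⟩
    simp only [hmul, hQx x hx]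
  · rintro _ ⟨x, hx, rfl⟩
    have hx' : star P * x * P ∈ Mamp Γ :=
      Set.mul_mem_centralizer (Set.mul_mem_centralizer hPsM hx) hPM
    refine ⟨_, hx', ?_⟩
    simp only [hmul, hQx _ hx']
    have e : P * (star P * x * P) * star P = x := by
      rw [mul_assoc (star P), ← mul_assoc P, Unitary.mul_star_self_of_mem hPu,
        one_mul, mul_assoc, Unitary.mul_star_self_of_mem hPu, mul_one]
    rw [e]

/-- The linearised hypothesis. -/
lemma linear_hyp (u : Hamp Γ →L[ℂ] Hamp Γ) (hu : u ∈ unitary (Hamp Γ →L[ℂ] Hamp Γ)) (m δ : ℝ)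
    (hm : ‖u - 1‖ ≤ m) (hm1 : m ≤ 1) (hδ : 0 ≤ δ)
    (hyp : ∀ x ∈ Mamp Γ, ‖x‖ ≤ 1 → ∃ y ∈ Mamp Γ, ‖u * x * star u - y‖ ≤ δ) :
    ∀ x ∈ Mamp Γ, ∃ a ∈ Mamp Γ,
      ‖(((2⁻¹ : ℂ) • (u - star u)) * x - x * ((2⁻¹ : ℂ) • (u - star u))) - a‖
        ≤ (2 * δ + 3 * m ^ 2) * ‖x‖ := by
  set h := (2⁻¹ : ℂ) • (u - star u)
  intro x hx
  rcases eq_or_ne x 0 with rfl | hne
  · exact ⟨0, Set.zero_mem_centralizer, by simp⟩
  · have hr : (0 : ℝ) < ‖x‖ := norm_pos_iff.2 hne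
    set c : ℂ := ((‖x‖ : ℝ) : ℂ) with hc
    have hc0 : c ≠ 0 := by rw [hc]; exact_mod_cast hr.ne'
    set x₁ := c⁻¹ • x
    have hx1 : ‖x₁‖ ≤ 1 := by
      rw [norm_smul, norm_inv, hc, Complex.norm_real, norm_norm, inv_mul_cancel₀ hr.ne']
    have hx1M : x₁ ∈ Mamp Γ := fun R hR => (Commute.smul_right (hx R hR) _)
    obtain ⟨z, hz, hz'⟩ := hyp x₁ hx1M hx1
    have hb := first_order u x₁ z hu m δ hm hm1 hδ hx1 hz'
    refine ⟨c • (z - x₁), fun R hR => Commute.smul_right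
      (Commute.sub_right (hz R hR) (hx1M R hR)) _, ?_⟩
    have e : (h * x - x * h) - c • (z - x₁) = c • ((h * x₁ - x₁ * h) - (z - x₁)) := by
      have : x = c • x₁ := by rw [smul_smul, mul_inv_cancel₀ hc0, one_smul]
      conv_lhs => rw [this]
      simp only [mul_smul_comm, smul_mul_assoc, smul_sub]
    rw [e, norm_smul, hc, Complex.norm_real, norm_norm, mul_comm]
    exact mul_le_mul_of_nonneg_right hb hr.le

/-- One improvement step. -/
lemma improve (hΓ : IsPowers Γ) (u : Hamp Γ →L[ℂ] Hamp Γ)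
    (hu : u ∈ unitary (Hamp Γ →L[ℂ] Hamp Γ)) (m δ : ℝ) (hm : ‖u - 1‖ ≤ m)
    (hδ : 0 < δ) (hm' : m ≤ 1 / 5000000) (hδ' : δ ≤ 1 / 5000000)
    (hyp : ∀ x ∈ Mamp Γ, ‖x‖ ≤ 1 → ∃ y ∈ Mamp Γ, ‖u * x * star u - y‖ ≤ δ) :
    ∃ v ∈ unitary (Hamp Γ →L[ℂ] Hamp Γ), ‖v - 1‖ ≤ m / 5 + 45001 * δ ∧
      (fun x => v * x * star v) '' Mamp Γ = (fun x => u * x * star u) '' Mamp Γ := by
  set h := (2⁻¹ : ℂ) • (u - star u) with hh
  set D := 2 * δ + 3 * m ^ 2 with hDdef
  have hm0 : 0 ≤ m := (norm_nonneg _).trans hm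
  have hD : 0 < D := by positivity
  have hhn : ‖h‖ ≤ m := by
    have e : h = (2⁻¹ : ℂ) • ((u - 1) - star (u - 1)) := by
      rw [hh, star_sub, star_one]; congr 1; abel
    rw [e]
    exact (norm_skew_le _).trans hm
  have hlin := linear_hyp u hu m δ hm (by linarith) hδ.le hyp
  obtain ⟨a, ha, b, hb, hna, hnb, he⟩ := linear_amp hΓ h D hD hlin
  set a' := (2⁻¹ : ℂ) • (a - star a)
  set b' := (2⁻¹ : ℂ) • (b - star b)
  have ha' : a' ∈ Mamp Γ := skew_mem (fun R hR => by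
    obtain ⟨g, rfl⟩ := hR; exact ⟨g⁻¹, by rw [star_amp, star_Rt]⟩) ha
  have hb' : b' ∈ Set.centralizer (Mamp Γ) := skew_mem (fun R hR => star_mem_Mamp hR) hb
  set s := m + δ with hs
  have hs1 : s ≤ 1 / 2500000 := by linarith
  have hDs : D ≤ 2 * δ + m := by nlinarith
  have hα : ‖a'‖ ≤ 16 * s := (norm_skew_le a).trans (hna.trans (by linarith))
  have hβ : ‖b'‖ ≤ 16 * s := (norm_skew_le b).trans (hnb.trans (by linarith))
  obtain ⟨hPu, hP, hPc⟩ := cay_spec a' (star_skew a) (hα.trans (by linarith))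
  obtain ⟨hQu, hQ, hQc⟩ := cay_spec b' (star_skew b) (hβ.trans (by linarith))
  refine ⟨u * cay a' * cay b', mul_mem (mul_mem hu hPu) hQu, ?_, ?_⟩
  · have hkh := norm_sub_skew u hu m hm
    have hE : ‖h - a' - b'‖ ≤ 88 * √(‖h‖ * D) + 189 * D :=
      (skew_sub_le h a b (star_skew u)).trans he
    have hst := step_norm (u - 1) h a' b' (cay a') (cay b') m (16 * s) (16 * s) _ hm hkh hE hα hβ
      (hP.trans (pow_le_pow_left₀ (norm_nonneg _) hα 2))
      (hQ.trans (pow_le_pow_left₀ (norm_nonneg _) hβ 2)) (by linarith) (by linarith) (by linarith)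
    rw [add_sub_cancel] at hst
    exact hst.trans (numeric m δ ‖h‖ hm0 hδ.le (norm_nonneg _) hhn hm' hδ')
  · exact image_eq u (cay a') (cay b') (fun R hR => hPc R (ha' R hR)) hPu hQu
      fun x hx => hQc x (hb' x hx)

/-- Local linear stability. -/
theorem local_stability (hΓ : IsPowers Γ) (u : Hamp Γ →L[ℂ] Hamp Γ)
    (hu : u ∈ unitary (Hamp Γ →L[ℂ] Hamp Γ)) (hu1 : ‖u - 1‖ ≤ 1 / 10000000) (δ : ℝ) (hδ : 0 < δ)
    (hyp : ∀ x ∈ Mamp Γ, ‖x‖ ≤ 1 → ∃ y ∈ Mamp Γ, ‖u * x * star u - y‖ ≤ δ) :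
    ∃ v ∈ unitary (Hamp Γ →L[ℂ] Hamp Γ), ‖v - 1‖ ≤ 60000 * δ ∧
      (fun x => v * x * star v) '' Mamp Γ = (fun x => u * x * star u) '' Mamp Γ := by
  by_cases hbig : 1 / 10000000 ≤ 60000 * δ
  · exact ⟨u, hu, hu1.trans hbig, rfl⟩
  rw [not_le] at hbig
  let S : Set ℝ := {r | ∃ v ∈ unitary (Hamp Γ →L[ℂ] Hamp Γ), ‖v - 1‖ = r ∧
    (fun x => v * x * star v) '' Mamp Γ = (fun x => u * x * star u) '' Mamp Γ}
  have hS : ‖u - 1‖ ∈ S := ⟨u, hu, rfl, rfl⟩
  have hS0 : BddBelow S := ⟨0, fun r ⟨v, _, hr, _⟩ => hr ▸ norm_nonneg _⟩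
  obtain ⟨r, ⟨v, hv, hvr, himg⟩, hrlt⟩ :=
    exists_lt_of_csInf_lt ⟨_, hS⟩ (lt_add_of_pos_right (sInf S) hδ)
  have hn : sInf S ≤ ‖u - 1‖ := csInf_le hS0 hS
  have hyp' : ∀ x ∈ Mamp Γ, ‖x‖ ≤ 1 → ∃ y ∈ Mamp Γ, ‖v * x * star v - y‖ ≤ δ := by
    intro x hx hx1
    obtain ⟨x', hx', he⟩ : v * x * star v ∈ (fun x => u * x * star u) '' Mamp Γ :=
      himg ▸ ⟨x, hx, rfl⟩
    have hback : x' = star u * (v * x * star v) * u := by
      rw [← he]
      simp only [← mul_assoc, Unitary.star_mul_self_of_mem hu, one_mul]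
      rw [mul_assoc, Unitary.star_mul_self_of_mem hu, mul_one]
    have hx'1 : ‖x'‖ ≤ 1 := by
      rw [hback, CStarRing.norm_mul_mem_unitary _ hu,
        CStarRing.norm_mem_unitary_mul _ (Unitary.star_mem hu),
        CStarRing.norm_mul_mem_unitary _ (Unitary.star_mem hv),
        CStarRing.norm_mem_unitary_mul _ hv]
      exact hx1
    obtain ⟨y, hy, hy'⟩ := hyp x' hx' hx'1
    exact ⟨y, hy, by rw [← he]; exact hy'⟩
  have hm : ‖v - 1‖ ≤ sInf S + δ := by linarith [hvr ▸ hrlt.le]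
  obtain ⟨w, hw, hwn, hwimg⟩ := improve hΓ v hv (sInf S + δ) δ hm hδ (by linarith) (by linarith) hyp'
  have h1 : sInf S ≤ ‖w - 1‖ := csInf_le hS0 ⟨w, hw, rfl, hwimg.trans himg⟩
  exact ⟨v, hv, by linarith, himg⟩

end Vale.Agent.P096
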