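import Mathlib.Analysis.InnerProductSpace.Dual
import Mathlib.Analysis.InnerProductSpace.Adjoint
import Mathlib.Analysis.CStarAlgebra.ContinuousLinearMap
import Mathlib.Topology.UniformSpace.Cauchy
import Mathlib.Analysis.Complex.Basic

/-!
# Limits of operators along an ultrafilter in the weak sense
-/

noncomputable section

namespace Vale.Agent.P096

open Filter Topology InnerProductSpace
open scoped InnerProductSpace ComplexConjugate

variable {H : Type*} [NormedAddCommGroup H] [InnerProductSpace ℂ H] [CompleteSpace H]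

/-- A complex family that is eventually bounded converges along an ultrafilter. -/
lemma exists_ultra_lim {ι : Type*} (U : Ultrafilter ι) (f : ι → ℂ) (C : ℝ)
    (hf : ∀ᶠ i in (U : Filter ι), ‖f i‖ ≤ C) :
    ∃ z : ℂ, Tendsto f U (𝓝 z) ∧ ‖z‖ ≤ C := by
  have hmem : Metric.closedBall (0 : ℂ) C ∈ (U.map f : Filter ℂ) := by
    rw [Ultrafilter.coe_map, Filter.mem_map]
    filter_upwards [hf] with i hi
    simpa using hi
  obtain ⟨z, hz, hle⟩ := (isCompact_closedBall (0 : ℂ) C).ultrafilter_le_nhds' (U.map f) hmem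
  exact ⟨z, hle, by simpa using hz⟩

/-- An eventually bounded family of operators has a weak limit along an ultrafilter. -/
lemma exists_weak_lim {ι : Type*} (U : Ultrafilter ι) (f : ι → H →L[ℂ] H) (C : ℝ) (hC : 0 ≤ C)
    (hf : ∀ x y : H, ∀ᶠ i in (U : Filter ι), ‖⟪x, f i y⟫_ℂ‖ ≤ C * ‖x‖ * ‖y‖) :
    ∃ T : H →L[ℂ] H, ‖T‖ ≤ C ∧ ∀ x y : H, Tendsto (fun i => ⟪x, f i y⟫_ℂ) U (𝓝 ⟪x, T y⟫_ℂ) := by
  choose B hB hBb using fun x y => exists_ultra_lim U (fun i => ⟪x, f i y⟫_ℂ) _ (hf x y)
  have addl : ∀ x x' y, B (x + x') y = B x y + B x' y := by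
    intro x x' y
    refine tendsto_nhds_unique (hB (x + x') y) ?_
    refine ((hB x y).add (hB x' y)).congr fun i => ?_
    rw [inner_add_left]
  have addr : ∀ x y y', B x (y + y') = B x y + B x y' := by
    intro x y y'
    refine tendsto_nhds_unique (hB x (y + y')) ?_
    refine ((hB x y).add (hB x y')).congr fun i => ?_
    rw [map_add, inner_add_right]
  have smulr : ∀ (c : ℂ) x y, B x (c • y) = c * B x y := by
    intro c x y
    refine tendsto_nhds_unique (hB x (c • y)) ?_
    refine ((hB x y).const_mul c).congr fun i => ?_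
    rw [map_smul, inner_smul_right]
  have smull : ∀ (c : ℂ) x y, B (c • x) y = conj c * B x y := by
    intro c x y
    refine tendsto_nhds_unique (hB (c • x) y) ?_
    refine ((hB x y).const_mul (conj c)).congr fun i => ?_
    rw [inner_smul_left]
  let B' : H →ₗ⋆[ℂ] H →ₗ[ℂ] ℂ :=
    LinearMap.mk₂'ₛₗ (starRingEnd ℂ) (RingHom.id ℂ) B addl smull addr smulr
  let Bc : H →L⋆[ℂ] H →L[ℂ] ℂ := LinearMap.mkContinuous₂ B' C fun x y => hBb x y
  let S : H →L[ℂ] H := continuousLinearMapOfBilin Bc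
  have hS : ∀ x y, ⟪S x, y⟫_ℂ = B x y := by
    intro x y
    simp only [S, continuousLinearMapOfBilin_apply]
    rfl
  refine ⟨star S, ?_, fun x y => ?_⟩
  · rw [norm_star]
    refine ContinuousLinearMap.opNorm_le_bound _ hC fun x => ?_
    have h1 : ‖S x‖ ^ 2 ≤ C * ‖x‖ * ‖S x‖ := by
      have := hBb x (S x)
      rw [← hS x (S x), norm_inner_eq_sq] at this
      exact this
    rcases eq_or_lt_of_le (norm_nonneg (S x)) with h0 | h0
    · rw [← h0]; positivity
    · nlinarith
  · have : ⟪x, star S y⟫_ℂ = B x y := by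
      rw [ContinuousLinearMap.star_eq_adjoint, ContinuousLinearMap.adjoint_inner_right]
      exact hS x y
    rw [this]
    exact hB x y
where
  norm_inner_eq_sq {v : H} : ‖⟪v, v⟫_ℂ‖ = ‖v‖ ^ 2 := by
    rw [inner_self_eq_norm_sq_to_K]; simp

/-- An operator bound tested on inner products. -/
lemma norm_le_of_inner_le (T : H →L[ℂ] H) (C : ℝ) (hC : 0 ≤ C)
    (h : ∀ x y : H, ‖⟪x, T y⟫_ℂ‖ ≤ C * ‖x‖ * ‖y‖) : ‖T‖ ≤ C := by
  refine ContinuousLinearMap.opNorm_le_bound _ hC fun y => ?_
  have h1 := h (T y) y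
  rw [inner_self_eq_norm_sq_to_K] at h1
  simp only [Complex.coe_algebraMap, norm_pow, Complex.norm_real, norm_norm] at h1
  rcases eq_or_lt_of_le (norm_nonneg (T y)) with h0 | h0
  · rw [← h0]; positivity
  · nlinarith

omit [CompleteSpace H] in
lemma inner_op_le (T : H →L[ℂ] H) (x y : H) : ‖⟪x, T y⟫_ℂ‖ ≤ ‖T‖ * ‖x‖ * ‖y‖ := by
  refine (norm_inner_le_norm x (T y)).trans ?_
  have := T.le_opNorm y
  nlinarith [norm_nonneg x, mul_le_mul_of_nonneg_left this (norm_nonneg x)]

/-- A weak limit of operators commuting with `a` commutes with `a`. -/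
lemma weak_lim_commute {ι : Type*} {l : Filter ι} [l.NeBot] {f : ι → H →L[ℂ] H} {T a : H →L[ℂ] H}
    (hT : ∀ x y : H, Tendsto (fun i => ⟪x, f i y⟫_ℂ) l (𝓝 ⟪x, T y⟫_ℂ))
    (hc : ∀ᶠ i in l, a * f i = f i * a) : a * T = T * a := by
  refine ContinuousLinearMap.ext fun y => ext_inner_left ℂ fun x => ?_
  simp only [ContinuousLinearMap.mul_apply]
  rw [← ContinuousLinearMap.adjoint_inner_left]
  refine tendsto_nhds_unique (hT _ y) ?_
  refine (hT x (a y)).congr' ?_
  filter_upwards [hc] with i hi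
  rw [ContinuousLinearMap.adjoint_inner_left, ← ContinuousLinearMap.mul_apply,
    ← ContinuousLinearMap.mul_apply, hi]

end Vale.Agent.P096
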