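import Vale.Agent.P096.Center
import Vale.Agent.P096.WeakLim
import Vale.Agent.P096.Defs
import Mathlib.Algebra.Order.Chebyshev

/-!
# Powers groups, free sums and the averaged pairing bound
-/

noncomputable section

namespace Vale.Agent.P096

open scoped InnerProductSpace ComplexConjugate ENNReal

variable {Γ : Type*} [Group Γ]

/-- Ping-pong data obtained from the Powers property. -/
lemma IsPowers.pingPong (hΓ : IsPowers Γ) (F : Finset Γ) (hF : (1 : Γ) ∉ F) (N : ℕ) :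
    ∃ (s : Fin N → Γ) (P : Fin N → Set Γ),
      (∀ i j, i ≠ j → ∀ x, x ∈ P i → x ∉ P j) ∧
      ∀ k, ∀ g ∈ F, ∀ w, w ∉ P k → s k * g * (s k)⁻¹ * w ∈ P k := by
  obtain ⟨C, γ, hC, hD⟩ := hΓ F hF N
  refine ⟨γ, fun k => {x | (γ k)⁻¹ * x ∉ C}, fun i j hij x hi hj => ?_, fun k g hg w hw => ?_⟩
  · exact hD i j hij _ _ hi hj (by simp)
  · simp only [Set.mem_setOf_eq, not_not] at hw ⊢
    simpa [mul_assoc] using hC g hg _ hw

/-- The diagonal projection on a set. -/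
def proj (S : Set Γ) : Hl2 Γ →L[ℂ] Hl2 Γ :=
  LinearMap.mkContinuous
    { toFun := fun f => ⟨S.indicator f, by
        have h := (lp.memℓp f).summable (p := 2) (by norm_num)
        refine memℓp_gen (Summable.of_nonneg_of_le (fun x => by positivity) (fun x => ?_) h)
        refine Real.rpow_le_rpow (norm_nonneg _) ?_ (by norm_num)
        exact norm_indicator_le_norm_self _ _⟩
      map_add' := fun f g => by
        ext x
        exact congrFun (Set.indicator_add' S (f : Γ → ℂ) g) x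
      map_smul' := fun c f => by
        ext x
        exact congrFun (Set.indicator_const_smul S c (f : Γ → ℂ)) x }
    1 fun f => by
      rw [one_mul]
      refine lp.norm_mono (by norm_num) fun x => ?_
      exact norm_indicator_le_norm_self _ _

lemma proj_apply (S : Set Γ) (f : Hl2 Γ) (x : Γ) : proj S f x = S.indicator f x := rfl

lemma proj_add (S : Set Γ) (f : Hl2 Γ) : proj S f + proj Sᶜ f = f := by
  ext x
  exact congrFun (Set.indicator_self_add_compl S (f : Γ → ℂ)) x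

lemma norm_proj_le (S : Set Γ) (f : Hl2 Γ) : ‖proj S f‖ ≤ ‖f‖ := by
  refine lp.norm_mono (by norm_num) fun x => ?_
  exact norm_indicator_le_norm_self _ _

lemma inner_eq_zero_of_disjoint (f g : Hl2 Γ) (h : ∀ x, f x = 0 ∨ g x = 0) : ⟪f, g⟫_ℂ = 0 := by
  rw [lp.inner_eq_tsum]
  have : ∀ x, ⟪f x, g x⟫_ℂ = 0 := fun x => by
    rcases h x with h | h <;> simp [h]
  rw [tsum_congr this, tsum_zero]

lemma inner_proj (S : Set Γ) (f g : Hl2 Γ) : ⟪f, proj S g⟫_ℂ = ⟪proj S f, proj S g⟫_ℂ := by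
  have h0 : ⟪proj Sᶜ f, proj S g⟫_ℂ = 0 := inner_eq_zero_of_disjoint _ _ fun x => by
    by_cases hx : x ∈ S <;> simp [proj_apply, hx]
  conv_lhs => rw [← proj_add S f]
  rw [inner_add_left, h0, add_zero]

omit [Group Γ] in
/-- Pythagoras for a finite family of orthogonal vectors. -/
lemma norm_sum_sq_of_orth {E : Type*} [NormedAddCommGroup E] [InnerProductSpace ℂ E]
    {ι : Type*} (s : Finset ι) (v : ι → E) (h : ∀ i ∈ s, ∀ j ∈ s, i ≠ j → ⟪v i, v j⟫_ℂ = 0) :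
    ‖∑ i ∈ s, v i‖ ^ 2 = ∑ i ∈ s, ‖v i‖ ^ 2 := by
  classical
  induction s using Finset.induction_on with
  | empty => simp
  | insert a s ha ih =>
    rw [Finset.sum_insert ha, Finset.sum_insert ha, norm_add_sq (𝕜 := ℂ),
      ih fun i hi j hj => h i (Finset.mem_insert_of_mem hi) j (Finset.mem_insert_of_mem hj)]
    have h0 : ⟪v a, ∑ i ∈ s, v i⟫_ℂ = 0 := by
      rw [inner_sum]
      refine Finset.sum_eq_zero fun i hi => ?_
      exact h a (Finset.mem_insert_self a s) i (Finset.mem_insert_of_mem hi)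
        (fun e => ha (e ▸ hi))
    rw [h0]; simp

lemma sum_norm_proj_sq_le {N : ℕ} (P : Fin N → Set Γ)
    (hP : ∀ i j, i ≠ j → ∀ x, x ∈ P i → x ∉ P j) (f : Hl2 Γ) :
    ∑ k, ‖proj (P k) f‖ ^ 2 ≤ ‖f‖ ^ 2 := by
  rw [← norm_sum_sq_of_orth]
  · refine pow_le_pow_left₀ (norm_nonneg _) ?_ 2
    refine lp.norm_mono (by norm_num) fun x => ?_
    rw [lp.coeFn_sum, Finset.sum_apply]
    simp only [proj_apply]
    by_cases hx : ∃ k, x ∈ P k
    · obtain ⟨k, hk⟩ := hx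
      rw [Finset.sum_eq_single k]
      · exact norm_indicator_le_norm_self _ _
      · exact fun j _ hj => Set.indicator_of_notMem (fun hjx => hP j k hj x hjx hk) _
      · exact fun h => absurd (Finset.mem_univ k) h
    · rw [Finset.sum_eq_zero fun k _ => Set.indicator_of_notMem (fun h => hx ⟨k, h⟩) _]
      simp
  · intro i _ j _ hij
    refine inner_eq_zero_of_disjoint _ _ fun x => ?_
    by_cases hx : x ∈ P i
    · right; rw [proj_apply, Set.indicator_of_notMem (hP i j hij x hx)]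
    · left; rw [proj_apply, Set.indicator_of_notMem hx]

/-- A finitely supported combination of conjugated left translations. -/
def conjComb (s : Γ) (F : Finset Γ) (c : Γ → ℂ) : Hl2 Γ →L[ℂ] Hl2 Γ :=
  ∑ g ∈ F, c g • Lf (s * g * s⁻¹)

lemma conjComb_mem (s : Γ) (F : Finset Γ) (c : Γ → ℂ) : conjComb s F c ∈ M₀ Γ :=
  sum_mem_M₀ _ _ fun g _ => smul_mem_M₀ _ (Lf_mem _)

lemma norm_Lf_apply (g : Γ) (f : Hl2 Γ) : ‖Lf g f‖ = ‖f‖ := norm_pop_apply _ f

lemma norm_conjComb_le (s : Γ) (F : Finset Γ) (c : Γ → ℂ) :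
    ‖conjComb s F c‖ ≤ ∑ g ∈ F, ‖c g‖ := by
  refine (norm_sum_le _ _).trans (Finset.sum_le_sum fun g _ => ?_)
  rw [norm_smul]
  exact mul_le_of_le_one_right (norm_nonneg _) (norm_pop_le _)

/-- The creation part of a conjugated combination. -/
lemma conjComb_creation (s : Γ) (P : Set Γ) (F : Finset Γ) (c : Γ → ℂ)
    (hin : ∀ g ∈ F, ∀ w, w ∉ P → s * g * s⁻¹ * w ∈ P)
    (hq : ∀ g ∈ F, ∀ h ∈ F, g ≠ h → ∀ w, w ∉ P → s * (g⁻¹ * h) * s⁻¹ * w ∈ P) (ζ : Hl2 Γ) :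
    proj P (conjComb s F c (proj Pᶜ ζ)) = conjComb s F c (proj Pᶜ ζ) ∧
      ‖conjComb s F c (proj Pᶜ ζ)‖ ^ 2 ≤ (∑ g ∈ F, ‖c g‖ ^ 2) * ‖ζ‖ ^ 2 := by
  have e : conjComb s F c (proj Pᶜ ζ) = ∑ g ∈ F, c g • Lf (s * g * s⁻¹) (proj Pᶜ ζ) := by
    simp [conjComb]
  have supp : ∀ g x, Lf (s * g * s⁻¹) (proj Pᶜ ζ) x ≠ 0 → (s * g * s⁻¹)⁻¹ * x ∉ P := by
    intro g x hx hP
    apply hx
    rw [Lf_apply, proj_apply, Set.indicator_of_notMem]
    simpa using hP
  constructor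
  · ext x
    rw [proj_apply]
    by_cases hx : x ∈ P
    · rw [Set.indicator_of_mem hx]
    · rw [Set.indicator_of_notMem hx, e]
      symm
      rw [lp.coeFn_sum, Finset.sum_apply]
      refine Finset.sum_eq_zero fun g hg => ?_
      simp only [lp.coeFn_smul, Pi.smul_apply, smul_eq_mul, mul_eq_zero]
      by_contra hne
      rw [not_or] at hne
      apply hx
      have h1 := hin g hg _ (supp g x hne.2)
      rwa [mul_inv_cancel_left] at h1
  · rw [e, norm_sum_sq_of_orth, Finset.sum_mul]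
    · refine Finset.sum_le_sum fun g _ => ?_
      rw [norm_smul, mul_pow, norm_Lf_apply]
      gcongr
      exact norm_proj_le _ _
    · intro g hg h hh hne
      rw [inner_smul_left, inner_smul_right, inner_eq_zero_of_disjoint, mul_zero, mul_zero]
      intro x
      by_contra hboth
      rw [not_or] at hboth
      have h1 := supp g x hboth.1
      have h2 := supp h x hboth.2
      apply h1
      have h3 := hq g hg h hh hne _ h2
      convert h3 using 1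
      group

lemma star_conjComb [DecidableEq Γ] (s : Γ) (F : Finset Γ) (c : Γ → ℂ) :
    star (conjComb s F c) = conjComb s (F.image (·⁻¹)) (fun g => conj (c g⁻¹)) := by
  rw [conjComb, conjComb, star_sum, Finset.sum_image fun a _ b _ h => inv_injective h]
  refine Finset.sum_congr rfl fun g _ => ?_
  rw [star_smul, star_Lf, inv_inv, RCLike.star_def]
  congr 2
  group

/-- The three pieces of one conjugated combination. -/
lemma split_bound (s : Γ) (P : Set Γ) (F : Finset Γ) (c : Γ → ℂ)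
    (hin : ∀ g ∈ F, ∀ w, w ∉ P → s * g * s⁻¹ * w ∈ P)
    (hin' : ∀ g ∈ F, ∀ w, w ∉ P → s * g⁻¹ * s⁻¹ * w ∈ P)
    (hq : ∀ g ∈ F, ∀ h ∈ F, g ≠ h → ∀ w, w ∉ P → s * (g⁻¹ * h) * s⁻¹ * w ∈ P)
    (hq' : ∀ g ∈ F, ∀ h ∈ F, g ≠ h → ∀ w, w ∉ P → s * (g * h⁻¹) * s⁻¹ * w ∈ P)
    (η ζ : Hl2 Γ) :
    ‖⟪η, conjComb s F c ζ⟫_ℂ‖ ≤ √(∑ g ∈ F, ‖c g‖ ^ 2) * ‖ζ‖ * ‖proj P η‖
      + √(∑ g ∈ F, ‖c g‖ ^ 2) * ‖η‖ * ‖proj P ζ‖
      + (∑ g ∈ F, ‖c g‖) * (‖proj P η‖ * ‖proj P ζ‖) := by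
  classical
  have hσ := Real.sq_sqrt (Finset.sum_nonneg fun g (_ : g ∈ F) => sq_nonneg ‖c g‖)
  obtain ⟨h1, h2⟩ := conjComb_creation s P F c hin hq ζ
  obtain ⟨h3, h4⟩ := conjComb_creation s P (F.image (·⁻¹)) (fun g => conj (c g⁻¹))
    (by
      intro g hg w hw
      obtain ⟨g, hg', rfl⟩ := Finset.mem_image.1 hg
      exact hin' g hg' w hw)
    (by
      intro g hg h hh hne w hw
      obtain ⟨g, hg', rfl⟩ := Finset.mem_image.1 hg
      obtain ⟨h, hh', rfl⟩ := Finset.mem_image.1 hh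
      rw [inv_inv]
      exact hq' g hg' h hh' (fun e => hne (by rw [e])) w hw) η
  rw [Finset.sum_image fun a _ b _ h => inv_injective h] at h4
  simp only [inv_inv, RCLike.norm_conj] at h4
  rw [← star_conjComb] at h3 h4
  rw [← hσ, ← mul_pow] at h2 h4
  have b2 := le_of_pow_le_pow_left₀ two_ne_zero (by positivity) h2
  have b4 := le_of_pow_le_pow_left₀ two_ne_zero (by positivity) h4
  have e1 : ⟪η, conjComb s F c ζ⟫_ℂ = ⟪η, conjComb s F c (proj Pᶜ ζ)⟫_ℂ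
      + ⟪proj Pᶜ η, conjComb s F c (proj P ζ)⟫_ℂ + ⟪proj P η, conjComb s F c (proj P ζ)⟫_ℂ := by
    have e2 := proj_add P ζ
    have e3 : ⟪η, conjComb s F c (proj P ζ)⟫_ℂ = ⟪proj P η, conjComb s F c (proj P ζ)⟫_ℂ
        + ⟪proj Pᶜ η, conjComb s F c (proj P ζ)⟫_ℂ := by rw [← inner_add_left, proj_add]
    conv_lhs => rw [← e2, map_add, inner_add_right, e3]
    ring
  rw [e1]
  refine norm_add₃_le.trans (add_le_add (add_le_add ?_ ?_) ?_)
  · rw [← h1, inner_proj, h1]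
    refine (norm_inner_le_norm _ _).trans ?_
    rw [mul_comm]
    exact mul_le_mul_of_nonneg_right b2 (norm_nonneg _)
  · rw [← ContinuousLinearMap.adjoint_inner_left, ← ContinuousLinearMap.star_eq_adjoint,
      ← inner_conj_symm, RCLike.norm_conj, ← h3, inner_proj, h3]
    refine (norm_inner_le_norm _ _).trans ?_
    rw [mul_comm]
    exact mul_le_mul b4 (norm_proj_le _ _) (norm_nonneg _) (by positivity)
  · refine (inner_op_le _ _ _).trans ?_
    rw [mul_assoc]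
    exact mul_le_mul_of_nonneg_right (norm_conjComb_le _ _ _) (by positivity)

/-- The free sum bound: norms of signed sums of conjugates grow like `√N`. -/
lemma norm_signed_sum_le {N : ℕ} (s : Fin N → Γ) (P : Fin N → Set Γ) (F : Finset Γ)
    (hP : ∀ i j, i ≠ j → ∀ x, x ∈ P i → x ∉ P j)
    (hin : ∀ k, ∀ g ∈ F, ∀ w, w ∉ P k → s k * g * (s k)⁻¹ * w ∈ P k)
    (hin' : ∀ k, ∀ g ∈ F, ∀ w, w ∉ P k → s k * g⁻¹ * (s k)⁻¹ * w ∈ P k)
    (hq : ∀ k, ∀ g ∈ F, ∀ h ∈ F, g ≠ h → ∀ w, w ∉ P k →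
      s k * (g⁻¹ * h) * (s k)⁻¹ * w ∈ P k)
    (hq' : ∀ k, ∀ g ∈ F, ∀ h ∈ F, g ≠ h → ∀ w, w ∉ P k →
      s k * (g * h⁻¹) * (s k)⁻¹ * w ∈ P k)
    (c : Γ → ℂ) (e : Fin N → ℂ) (he : ∀ k, ‖e k‖ ≤ 1) :
    ‖∑ k, e k • conjComb (s k) F c‖
      ≤ 2 * √N * √(∑ g ∈ F, ‖c g‖ ^ 2) + ∑ g ∈ F, ‖c g‖ := by
  classical
  set σ := √(∑ g ∈ F, ‖c g‖ ^ 2)
  set B := ∑ g ∈ F, ‖c g‖
  have hσ : σ ^ 2 = ∑ g ∈ F, ‖c g‖ ^ 2 := Real.sq_sqrt (by positivity)
  have hσ0 : 0 ≤ σ := Real.sqrt_nonneg _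
  have hB0 : 0 ≤ B := by positivity
  refine norm_le_of_inner_le _ _ (by positivity) fun η ζ => ?_
  let A := fun k => conjComb (s k) F c
  let q := fun k => ‖proj (P k) η‖
  let p := fun k => ‖proj (P k) ζ‖
  have split : ∀ k, ‖⟪η, A k ζ⟫_ℂ‖ ≤ σ * ‖ζ‖ * q k + σ * ‖η‖ * p k + B * (q k * p k) :=
    fun k => split_bound (s k) (P k) F c (hin k) (hin' k) (hq k) (hq' k) η ζ
  have hq2 : ∑ k, q k ^ 2 ≤ ‖η‖ ^ 2 := sum_norm_proj_sq_le P hP η
  have hp2 : ∑ k, p k ^ 2 ≤ ‖ζ‖ ^ 2 := sum_norm_proj_sq_le P hP ζ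
  have cs : ∀ v : Fin N → ℝ, ∀ r, (∀ k, 0 ≤ v k) → 0 ≤ r → ∑ k, v k ^ 2 ≤ r ^ 2 →
      ∑ k, v k ≤ √N * r := by
    intro v r hv hr h
    have h1 := sq_sum_le_card_mul_sum_sq (s := Finset.univ) (f := v)
    simp only [Finset.card_univ, Fintype.card_fin] at h1
    refine le_of_pow_le_pow_left₀ two_ne_zero (by positivity) ?_
    rw [mul_pow, Real.sq_sqrt (Nat.cast_nonneg N)]
    exact h1.trans (mul_le_mul_of_nonneg_left h (Nat.cast_nonneg N))
  have hqp : ∑ k, q k * p k ≤ ‖η‖ * ‖ζ‖ := by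
    have h1 := Finset.sum_mul_sq_le_sq_mul_sq Finset.univ q p
    refine le_of_pow_le_pow_left₀ two_ne_zero (by positivity) (h1.trans ?_)
    rw [mul_pow]
    exact mul_le_mul hq2 hp2 (Finset.sum_nonneg fun k _ => sq_nonneg _) (sq_nonneg _)
  calc ‖⟪η, (∑ k, e k • A k) ζ⟫_ℂ‖ ≤ ∑ k, ‖⟪η, A k ζ⟫_ℂ‖ := by
        rw [sum_apply, inner_sum]
        refine (norm_sum_le _ _).trans (Finset.sum_le_sum fun k _ => ?_)
        rw [smul_apply, inner_smul_right, norm_mul]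
        exact mul_le_of_le_one_left (norm_nonneg _) (he k)
    _ ≤ ∑ k, (σ * ‖ζ‖ * q k + σ * ‖η‖ * p k + B * (q k * p k)) :=
        Finset.sum_le_sum fun k _ => split k
    _ = σ * ‖ζ‖ * ∑ k, q k + σ * ‖η‖ * ∑ k, p k + B * ∑ k, q k * p k := by
        simp only [Finset.sum_add_distrib, Finset.mul_sum]
    _ ≤ σ * ‖ζ‖ * (√N * ‖η‖) + σ * ‖η‖ * (√N * ‖ζ‖) + B * (‖η‖ * ‖ζ‖) := by
        gcongr
        · exact cs q _ (fun k => norm_nonneg _) (norm_nonneg _) hq2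
        · exact cs p _ (fun k => norm_nonneg _) (norm_nonneg _) hp2
    _ = _ := by ring

/-- The sign of a Boolean. -/
def sgn (b : Bool) : ℂ := if b then 1 else -1

lemma norm_sgn (b : Bool) : ‖sgn b‖ = 1 := by cases b <;> simp [sgn]

lemma sum_sgn_mul {N : ℕ} (i j : Fin N) :
    ∑ ω : Fin N → Bool, sgn (ω i) * sgn (ω j) = if i = j then (2 : ℂ) ^ N else 0 := by
  rcases eq_or_ne i j with rfl | hij
  · have : ∀ b, sgn b * sgn b = 1 := fun b => by cases b <;> simp [sgn]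
    simp [this]
  · rw [if_neg hij]
    refine Finset.sum_involution (fun ω _ => Function.update ω i (!ω i)) ?_ ?_
      (fun _ _ => Finset.mem_univ _) ?_
    · intro ω _
      rw [Function.update_self, Function.update_of_ne hij.symm]
      cases ω i <;> cases ω j <;> simp [sgn]
    · intro ω _ _ h
      have := congrFun h i
      simp at this
    · intro ω _
      simp [Function.update_idem]

/-- The averaged pairing bound. -/
lemma pairing_bound {N : ℕ} (A : Fin N → Hl2 Γ →L[ℂ] Hl2 Γ) (z : Fin N → Hl2 Γ)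
    (φ : (Hl2 Γ →L[ℂ] Hl2 Γ) → Hl2 Γ) (K X Z : ℝ) (hK : 0 ≤ K) (hX : 0 ≤ X) (hZ : 0 ≤ Z)
    (hlin : ∀ e : Fin N → ℂ, φ (∑ k, e k • A k) = ∑ k, e k • φ (A k))
    (hφ : ∀ e : Fin N → ℂ, ‖φ (∑ k, e k • A k)‖ ≤ K * ‖∑ k, e k • A k‖)
    (hA : ∀ e : Fin N → ℂ, (∀ k, ‖e k‖ ≤ 1) → ‖∑ k, e k • A k‖ ≤ X)
    (hz : ∀ k, ‖z k‖ ≤ Z) :
    ‖∑ k, ⟪z k, φ (A k)⟫_ℂ‖ ≤ K * X * (√N * Z) := by
  classical
  let Zv : (Fin N → Bool) → Hl2 Γ := fun ω => ∑ k, sgn (ω k) • z k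
  let v : (Fin N → Bool) → Hl2 Γ := fun ω => φ (∑ k, sgn (ω k) • A k)
  have hconj : ∀ b, conj (sgn b) = sgn b := fun b => by cases b <;> simp [sgn]
  have e1 : ∑ ω, ⟪Zv ω, v ω⟫_ℂ = (2 : ℂ) ^ N * ∑ k, ⟪z k, φ (A k)⟫_ℂ := by
    simp only [Zv, v, hlin, sum_inner, inner_sum, inner_smul_left, inner_smul_right, hconj]
    rw [Finset.sum_comm, Finset.mul_sum]
    refine Finset.sum_congr rfl fun k _ => ?_
    simp only [Finset.mul_sum, ← mul_assoc]
    rw [Finset.sum_comm]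
    simp only [← Finset.sum_mul]
    rw [Finset.sum_eq_single k]
    · rw [sum_sgn_mul, if_pos rfl]
    · intro l _ hl
      rw [sum_sgn_mul, if_neg (fun h => hl h.symm), zero_mul]
    · exact fun h => absurd (Finset.mem_univ k) h
  have e2 : ∑ ω, ‖Zv ω‖ ^ 2 ≤ 2 ^ N * (N * Z ^ 2) := by
    have h : ∑ ω, ⟪Zv ω, Zv ω⟫_ℂ = ∑ k, (2 : ℂ) ^ N * ⟪z k, z k⟫_ℂ := by
      simp only [Zv, sum_inner, inner_sum, inner_smul_left, inner_smul_right, hconj]
      rw [Finset.sum_comm]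
      refine Finset.sum_congr rfl fun k _ => ?_
      simp only [Finset.mul_sum, ← mul_assoc]
      rw [Finset.sum_comm]
      simp only [← Finset.sum_mul]
      rw [Finset.sum_eq_single k]
      · rw [sum_sgn_mul, if_pos rfl]
      · intro l _ hl
        rw [sum_sgn_mul, if_neg (fun h => hl h.symm), zero_mul]
      · exact fun h => absurd (Finset.mem_univ k) h
    simp only [inner_self_eq_norm_sq_to_K] at h
    have h' : ∑ ω, ‖Zv ω‖ ^ 2 = ∑ k, (2 : ℝ) ^ N * ‖z k‖ ^ 2 :=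
      Complex.ofReal_injective (by push_cast; exact h)
    rw [h', ← Finset.mul_sum]
    gcongr
    refine (Finset.sum_le_sum fun k _ => pow_le_pow_left₀ (norm_nonneg _) (hz k) 2).trans ?_
    simp
  have e3 : ∑ ω, ‖Zv ω‖ ≤ 2 ^ N * (√N * Z) := by
    have h1 := sq_sum_le_card_mul_sum_sq (s := Finset.univ) (f := fun ω => ‖Zv ω‖)
    simp only [Finset.card_univ, Fintype.card_fun, Fintype.card_bool, Fintype.card_fin,
      Nat.cast_pow, Nat.cast_ofNat] at h1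
    refine le_of_pow_le_pow_left₀ two_ne_zero (by positivity) (h1.trans ?_)
    rw [mul_pow, mul_pow, Real.sq_sqrt (Nat.cast_nonneg N), sq ((2 : ℝ) ^ N), mul_assoc]
    exact mul_le_mul_of_nonneg_left e2 (by positivity)
  have e4 : ‖∑ ω, ⟪Zv ω, v ω⟫_ℂ‖ ≤ ∑ ω, K * X * ‖Zv ω‖ := by
    refine (norm_sum_le _ _).trans (Finset.sum_le_sum fun ω _ => ?_)
    refine (norm_inner_le_norm _ _).trans ?_
    rw [mul_comm]
    refine mul_le_mul_of_nonneg_right ?_ (norm_nonneg _)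
    exact (hφ _).trans (mul_le_mul_of_nonneg_left (hA _ fun k => (norm_sgn _).le) hK)
  rw [e1, norm_mul, norm_pow, Complex.norm_two, ← Finset.mul_sum] at e4
  have h2 : (0 : ℝ) < 2 ^ N := by positivity
  have h3 := e4.trans (mul_le_mul_of_nonneg_left e3 (mul_nonneg hK hX))
  nlinarith

end Vale.Agent.P096
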