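import Vale.Agent.P096.Main

/-!
# Transfer to an arbitrary Hilbert space with a basis indexed by `Γ × ℕ`
-/

noncomputable section

namespace Vale.Agent.P096

open scoped InnerProductSpace ComplexConjugate
open Submodule (span)

variable {Γ : Type} [Group Γ]

omit [Group Γ] in
lemma orthonormal_std : Orthonormal ℂ fun p : Γ × ℕ => inc p.2 (dlt p.1) := by
  classical
  rw [orthonormal_iff_ite]
  rintro ⟨g, i⟩ ⟨h, j⟩
  simp only [inner_inc, inc_apply, inner_dlt_left]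
  by_cases hij : i = j
  · subst hij
    simp [dlt_apply, Prod.ext_iff]
  · simp [hij]

omit [Group Γ] in
lemma orth_std : (span ℂ (Set.range fun p : Γ × ℕ => inc p.2 (dlt p.1)))ᗮ = ⊥ := by
  rw [Submodule.eq_bot_iff]
  intro f hf
  refine lp.ext (funext fun i => lp.ext (funext fun g => ?_))
  rw [Submodule.mem_orthogonal] at hf
  have := hf _ (Submodule.subset_span ⟨(g, i), rfl⟩)
  rw [inner_inc, inner_dlt_left] at this
  exact this

/-- The standard basis of `Hamp Γ`. -/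
def stdBasis (Γ : Type) : HilbertBasis (Γ × ℕ) ℂ (Hamp Γ) :=
  HilbertBasis.mkOfOrthogonalEqBot orthonormal_std orth_std

omit [Group Γ] in
lemma stdBasis_apply (p : Γ × ℕ) : stdBasis Γ p = inc p.2 (dlt p.1) :=
  congrFun (HilbertBasis.coe_mkOfOrthogonalEqBot _ _) p

omit [Group Γ] in
lemma op_eq_of_basis {ι K : Type*} [NormedAddCommGroup K] [InnerProductSpace ℂ K]
    (b : HilbertBasis ι ℂ K) (S T : K →L[ℂ] K) (h : ∀ i, S (b i) = T (b i)) : S = T :=
  ContinuousLinearMap.ext_on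
    (Submodule.dense_iff_topologicalClosure_eq_top.2 b.dense_span) (by rintro _ ⟨i, rfl⟩; exact h i)

/-- Transport of the stability property along an isometric star-algebra isomorphism. -/
lemma transport {A B : Type*} [NormedRing A] [StarRing A] [NormedAlgebra ℂ A] [NormedRing B]
    [StarRing B] [NormedAlgebra ℂ B] (Φ : A ≃⋆ₐ[ℂ] B) (hn : ∀ a, ‖Φ a‖ = ‖a‖)
    (S : Set A) (T : Set B) (hT : ∀ x, x ∈ T ↔ Φ.symm x ∈ S) (ε C : ℝ)
    (hS : ∀ u ∈ unitary A, ‖u - 1‖ ≤ ε → ∀ δ : ℝ, 0 < δ →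
      (∀ x ∈ S, ‖x‖ ≤ 1 → ∃ y ∈ S, ‖u * x * star u - y‖ ≤ δ) →
      ∃ v ∈ unitary A, ‖v - 1‖ ≤ C * δ ∧
        (fun x => v * x * star v) '' S = (fun x => u * x * star u) '' S) :
    ∀ u ∈ unitary B, ‖u - 1‖ ≤ ε → ∀ δ : ℝ, 0 < δ →
      (∀ x ∈ T, ‖x‖ ≤ 1 → ∃ y ∈ T, ‖u * x * star u - y‖ ≤ δ) →
      ∃ v ∈ unitary B, ‖v - 1‖ ≤ C * δ ∧
        (fun x => v * x * star v) '' T = (fun x => u * x * star u) '' T := by
  intro u hu hu1 δ hδ hyp
  obtain ⟨w, rfl⟩ : ∃ w, Φ w = u := ⟨Φ.symm u, Φ.apply_symm_apply u⟩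
  have mem : ∀ a, Φ a ∈ T ↔ a ∈ S := fun a => by rw [hT, Φ.symm_apply_apply]
  have hun : ∀ a, Φ a ∈ unitary B ↔ a ∈ unitary A := fun a => by
    rw [Unitary.mem_iff, Unitary.mem_iff, ← map_star, ← map_mul, ← map_mul, ← map_one Φ]
    exact and_congr Φ.injective.eq_iff Φ.injective.eq_iff
  have hdist : ∀ a, ‖Φ a - 1‖ = ‖a - 1‖ := fun a => by rw [← map_one Φ, ← map_sub, hn]
  obtain ⟨v, hv, hvn, himg⟩ := hS w ((hun w).1 hu) (by rwa [hdist] at hu1) δ hδ
    fun x hx hx1 => by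
      obtain ⟨y, hy, hy'⟩ := hyp (Φ x) ((mem x).2 hx) (by rwa [hn])
      refine ⟨Φ.symm y, (hT y).1 hy, ?_⟩
      rw [← hn, map_sub, map_mul, map_mul, map_star, Φ.apply_symm_apply]
      exact hy'
  refine ⟨Φ v, (hun v).2 hv, by rwa [hdist], ?_⟩
  have conv : ∀ a : A, (fun x => Φ a * x * star (Φ a)) '' T =
      Φ '' ((fun x => a * x * star a) '' S) := by
    intro a
    ext z
    simp only [Set.mem_image, exists_exists_and_eq_and]
    constructor
    · rintro ⟨x, hx, rfl⟩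
      exact ⟨Φ.symm x, (hT x).1 hx, by simp [map_mul, map_star]⟩
    · rintro ⟨x, hx, rfl⟩
      exact ⟨Φ x, (mem x).2 hx, by simp [map_mul, map_star]⟩
  rw [conv v, himg, ← conv]

/-- The transferred theorem. -/
theorem transfer {H : Type} [NormedAddCommGroup H] [InnerProductSpace ℂ H] [CompleteSpace H]
    (hΓ : IsPowers Γ) (b : HilbertBasis (Γ × ℕ) ℂ H) :
    ∃ M : VonNeumannAlgebra H,
      (∀ x : H →L[ℂ] H, x ∈ M ↔ ∀ (g : Γ) (R : H →L[ℂ] H),
        (∀ (k : Γ) (i : ℕ), R (b (k, i)) = b (k * g⁻¹, i)) → R * x = x * R) ∧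
      ∀ u ∈ unitary (H →L[ℂ] H), ‖u - 1‖ ≤ 1 / 10000000 → ∀ δ : ℝ, 0 < δ →
        (∀ x ∈ M, ‖x‖ ≤ 1 → ∃ y ∈ M, ‖u * x * star u - y‖ ≤ δ) →
        ∃ v ∈ unitary (H →L[ℂ] H), ‖v - 1‖ ≤ 60000 * δ ∧
          (fun x => v * x * star v) '' (M : Set (H →L[ℂ] H)) =
            (fun x => u * x * star u) '' (M : Set (H →L[ℂ] H)) := by
  classical
  let W : Hamp Γ ≃ₗᵢ[ℂ] H := (stdBasis Γ).repr.trans b.repr.symm
  have hW : ∀ p, W (inc p.2 (dlt p.1)) = b p := fun p => by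
    rw [← stdBasis_apply]
    show b.repr.symm ((stdBasis Γ).repr (stdBasis Γ p)) = b p
    rw [HilbertBasis.repr_self, HilbertBasis.repr_symm_single]
  let Φ := W.conjStarAlgEquiv
  have hR : ∀ (g : Γ) (R : H →L[ℂ] H),
      (∀ (k : Γ) (i : ℕ), R (b (k, i)) = b (k * g⁻¹, i)) ↔ R = Φ (amp (Rt g)) := by
    intro g R
    have key : ∀ (k : Γ) (i : ℕ), Φ (amp (Rt g)) (b (k, i)) = b (k * g⁻¹, i) := by
      intro k i
      rw [LinearIsometryEquiv.conjStarAlgEquiv_apply_apply, ← hW (k, i), W.symm_apply_apply,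
        amp_inc, Rt_dlt]
      exact hW (k * g⁻¹, i)
    exact ⟨fun h => op_eq_of_basis b _ _ fun p => (h p.1 p.2).trans (key p.1 p.2).symm,
      fun h => h ▸ key⟩
  have hmem : ∀ x : H →L[ℂ] H, x ∈ Set.centralizer (Φ '' rightSet Γ) ↔ Φ.symm x ∈ Mamp Γ := by
    intro x
    simp only [Set.mem_centralizer_iff, Mamp, Set.forall_mem_image]
    refine forall₂_congr fun R _ => ?_
    constructor
    · intro h
      have := congrArg Φ.symm h
      simpa only [map_mul, StarAlgEquiv.symm_apply_apply] using this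
    · intro h
      have := congrArg Φ h
      simpa only [map_mul, StarAlgEquiv.apply_symm_apply] using this
  let M : VonNeumannAlgebra H :=
    { toStarSubalgebra := StarSubalgebra.centralizer ℂ (Φ '' rightSet Γ)
      centralizer_centralizer' := by simp }
  have hstar : star (Φ '' rightSet Γ) = Φ '' rightSet Γ := by
    ext R
    simp only [Set.mem_star, rightSet, Set.mem_image, Set.mem_range, exists_exists_eq_and]
    constructor
    · rintro ⟨g, hg⟩
      exact ⟨g⁻¹, by rw [← star_star R, ← hg, ← map_star, star_amp, star_Rt]⟩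
    · rintro ⟨g, rfl⟩
      exact ⟨g⁻¹, by rw [← map_star, star_amp, star_Rt]⟩
  have hM : ∀ x : H →L[ℂ] H, x ∈ M ↔ Φ.symm x ∈ Mamp Γ := by
    intro x
    show x ∈ Set.centralizer (Φ '' rightSet Γ ∪ star (Φ '' rightSet Γ)) ↔ _
    rw [hstar, Set.union_self]
    exact hmem x
  have hnorm : ∀ e : Hamp Γ →L[ℂ] Hamp Γ, ‖Φ e‖ = ‖e‖ := by
    intro e
    refine le_antisymm ?_ ?_
    · refine ContinuousLinearMap.opNorm_le_bound _ (norm_nonneg e) fun z => ?_
      rw [LinearIsometryEquiv.conjStarAlgEquiv_apply_apply, W.norm_map]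
      refine (e.le_opNorm _).trans (le_of_eq ?_)
      rw [W.symm.norm_map]
    · refine ContinuousLinearMap.opNorm_le_bound _ (norm_nonneg _) fun z => ?_
      have h1 := (Φ e).le_opNorm (W z)
      rw [LinearIsometryEquiv.conjStarAlgEquiv_apply_apply, W.symm_apply_apply, W.norm_map,
        W.norm_map] at h1
      exact h1
  refine ⟨M, fun x => ?_, transport Φ hnorm (Mamp Γ) (M : Set (H →L[ℂ] H)) hM _ _
    fun u hu hu1 δ hδ hyp => local_stability hΓ u hu hu1 δ hδ hyp⟩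
  rw [hM, ← hmem, Set.mem_centralizer_iff, Set.forall_mem_image]
  constructor
  · intro h g R hRg
    rw [(hR g R).1 hRg]
    exact h ⟨g, rfl⟩
  · rintro h _ ⟨g, rfl⟩
    exact h g _ ((hR g _).2 rfl)

end Vale.Agent.P096
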